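import Vale.Agent.P018.H867.Main

/-! # P018, H867P: every pair of the range with `3 ≤ d`, `k ≤ d`, except `(4, 2)`, is admissible at
the exponent `1`. -/

set_option linter.all false

namespace Vale.Agent.P018.H867P

open Vale.Agent.P018.K Vale.Agent.P018.K2 Vale.Agent.P018.H867 Finset

theorem jint_zero (r : ℕ) (w : ℝ) (hw : 0 < w) (k : ℝ) (hk : 0 ≤ k) :
    Jint r 0 w k = ∑ j ∈ Icc 1 r, (r.choose j : ℝ) / ((j - 1).factorial * (r - j + 1).factorial) *
      (w * (k ^ (r + 1) / (r + 1))) := by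
  unfold Jint
  refine Finset.sum_congr rfl fun j hj => ?_
  rw [Finset.mem_Icc] at hj
  have h1 : ∫ u in (0 : ℝ)..k, u ^ (j - 1) * (max (w * u - 0) 0) ^ (r - j + 1) =
      ∫ u in (0 : ℝ)..k, w ^ (r - j + 1) * u ^ r := by
    apply intervalIntegral.integral_congr
    intro u hu
    rw [Set.uIcc_of_le hk, Set.mem_Icc] at hu
    have h2 : max (w * u - 0) 0 = w * u := by
      rw [sub_zero]
      exact max_eq_left (mul_nonneg hw.le hu.1)
    simp only [h2]
    rw [mul_pow]
    have h3 : u ^ r = u ^ (j - 1) * u ^ (r - j + 1) := by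
      rw [← pow_add]
      congr 1
      omega
    rw [h3]
    ring
  rw [h1, intervalIntegral.integral_const_mul, integral_pow]
  have h4 : w ^ (r - j + 1) = w ^ (r - j) * w := pow_succ _ _
  have h5 : w ^ (r - j) ≠ 0 := (pow_pos hw _).ne'
  have h6 : ((j - 1).factorial : ℝ) ≠ 0 := by positivity
  have h7 : ((r - j + 1).factorial : ℝ) ≠ 0 := by positivity
  rw [h4]
  field_simp
  simp

theorem adm_of_last (d k : ℕ) (hd : 3 ≤ d) (b : ℝ) (hb0 : 0 < b) (hb1 : b < 1 / d)
    (h : Crit d k (d - 1) 1 b) : Adm2 d k 1 := by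
  have hd0 : (0 : ℝ) < d := by exact_mod_cast (show 0 < d by omega)
  refine ⟨fun r => if r < d - 1 then 1 / (d : ℝ) else b, ?_, ?_, ?_, ?_, ?_⟩
  · simp only
    rw [if_pos (by omega)]
  · intro r
    simp only
    split_ifs with h1 h2 h2
    · exact le_rfl
    · omega
    · exact hb1.le
    · exact le_rfl
  · simp only
    rw [if_neg (by omega)]
    exact hb0
  · intro r hr1 hrd hlt
    have h1 : r = d - 1 := by
      by_contra hne
      simp only at hlt
      rw [if_pos (by omega), if_pos (by omega)] at hlt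
      exact lt_irrefl _ hlt
    subst h1
    simp only
    rw [if_neg (by omega)]
    exact h
  · obtain ⟨e, rfl⟩ : ∃ e, d = e + 1 := ⟨d - 1, by omega⟩
    rw [Finset.sum_range_succ]
    simp only [Nat.add_sub_cancel, lt_irrefl, if_false]
    rw [Finset.sum_congr rfl (g := fun _ => 1 / ((e + 1 : ℕ) : ℝ)) (fun r hr => by
      rw [if_pos (Finset.mem_range.1 hr)])]
    rw [Finset.sum_const, Finset.card_range, nsmul_eq_mul]
    have h2 : (e : ℝ) * (1 / ((e + 1 : ℕ) : ℝ)) = 1 - 1 / ((e + 1 : ℕ) : ℝ) := by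
      push_cast
      field_simp
      ring
    rw [h2]
    linarith

theorem adm_small (d k : ℕ) (hd : 3 ≤ d) (b : ℝ) (hb0 : 0 < b) (hb1 : b < 1 / d) (hk : 1 ≤ k)
    (h : 1 / ((d - 1 + 1).factorial * b ^ (d - 1)) <
      ∑ j ∈ Icc 1 (d - 1), ((d - 1).choose j : ℝ) / ((j - 1).factorial * (d - 1 - j + 1).factorial) *
      (1 / (d : ℝ) * ((k : ℝ) ^ (d - 1 + 1) / ((d - 1 : ℕ) + 1)))) : Adm2 d k 1 := by
  have hd0 : (0 : ℝ) < d := by exact_mod_cast (show 0 < d by omega)
  refine adm_of_last d k hd b hb0 hb1 ?_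
  refine crit_of_Jint d k (d - 1) (by omega) hk (by omega) 1 b 0 one_pos hb0 le_rfl one_pos ?_
  rw [jint_zero (d - 1) (1 / d) (by positivity) k (by positivity), sub_zero, one_pow]
  exact h

theorem adm_one (d k : ℕ) (hd : 3 ≤ d) (hk : 2 ≤ k) (hkd : k ≤ d) (hr : InRange d k)
    (hne : ¬ (d = 4 ∧ k = 2)) : Adm2 d k 1 := by
  have hk0 : (0 : ℝ) < k := by exact_mod_cast (show 0 < k by omega)
  have hdk : (1 : ℝ) ≤ (d : ℝ) / k := by
    rw [le_div_iff₀ hk0, one_mul]
    exact_mod_cast hkd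
  have hr' : d ≤ 4 ∨ d < 2 * k ∨ 2 * d + 12 ≤ 7 * k ∨
      (64 ≤ d ∧ (d : ℝ) / 4 + Real.log d ^ 2 ≤ k) := by
    rcases hr with h | h | h | h
    · exact Or.inl h
    · exact Or.inr (Or.inl h)
    · exact Or.inr (Or.inr (Or.inl h))
    · rcases lt_or_ge d 64 with h64 | h64
      · rcases K3.small_log d k hk h64 h with h1 | h1
        · exact Or.inr (Or.inl h1)
        · exact Or.inr (Or.inr (Or.inl h1))
      · exact Or.inr (Or.inr (Or.inr ⟨h64, h⟩))
  rcases lt_or_ge d 7 with h7 | h7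
  · have hk' : d = 3 ∨ (d = 4 ∧ 3 ≤ k) ∨ (d = 5 ∧ 3 ≤ k) ∨ (d = 6 ∧ 4 ≤ k) := by
      rcases hr' with h | h | h | h
      · omega
      · omega
      · omega
      · omega
    rcases hk' with rfl | ⟨rfl, h⟩ | ⟨rfl, h⟩ | ⟨rfl, h⟩
    · refine adm_small 3 k le_rfl (32 / 100) (by norm_num) (by norm_num) (by omega) ?_
      interval_cases k <;> norm_num [Finset.sum_Icc_succ_top, Nat.choose, Nat.factorial]
    · refine adm_small 4 k (by norm_num) (24 / 100) (by norm_num) (by norm_num) (by omega) ?_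
      interval_cases k <;> norm_num [Finset.sum_Icc_succ_top, Nat.choose, Nat.factorial]
    · refine adm_small 5 k (by norm_num) (19 / 100) (by norm_num) (by norm_num) (by omega) ?_
      interval_cases k <;> norm_num [Finset.sum_Icc_succ_top, Nat.choose, Nat.factorial]
    · refine adm_small 6 k (by norm_num) (16 / 100) (by norm_num) (by norm_num) (by omega) ?_
      interval_cases k <;> norm_num [Finset.sum_Icc_succ_top, Nat.choose, Nat.factorial]
  · by_cases h28 : 2 * d + 12 ≤ 7 * k ∧ 8 ≤ d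
    · exact K3.adm2_seven d k h28.2 hkd h28.1 1 le_rfl hdk
    · rcases hr' with h | h | h | h
      · omega
      · obtain ⟨h3, tab, h4, h5⟩ := K3.base_of 7 4 (by norm_num) (by norm_num) _ K3.t7_4_ok
        exact adm2_of_table 7 4 h3 tab h4 h5 d k (by omega) hkd h7 (by omega) 1 le_rfl hdk
      · obtain ⟨h3, tab, h4, h5⟩ := K3.base_of 7 4 (by norm_num) (by norm_num) _ K3.t7_4_ok
        exact adm2_of_table 7 4 h3 tab h4 h5 d k (by omega) hkd h7 (by omega) 1 le_rfl hdk
      · exact K3.adm2_log d k h.1 hkd h.2 1 le_rfl hdk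

end Vale.Agent.P018.H867P
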