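import Vale.Agent.P018.H867P.MainP
import Vale.Agent.P018.H867S.Balls

/-! # P018, H867P: the last steps. -/

namespace Vale.Agent.P018.H867P

open Polynomial Filter Topology Vale.Agent.P018.H867

theorem sieveBalls : SieveBalls := by
  intro B K hK D C e d hC he he1 hd hM hlt htail
  exact H867S.abs_sieve_balls hK hC he he1 hd hM hlt htail

/-- irreducible polynomials of a degree in the range. -/
theorem good_of_irr (f : ℤ[X]) (k : ℕ) (hirr : Irreducible (f.map (Int.castRingHom ℚ)))
    (hr : InRange f.natDegree k) : Good f k := by
  refine ⟨hirr.squarefree, fun g hg hgd => ?_⟩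
  have h1 : Associated g (f.map (Int.castRingHom ℚ)) := hg.associated_of_dvd hirr hgd
  have h2 : g.natDegree = (f.map (Int.castRingHom ℚ)).natDegree :=
    natDegree_eq_of_degree_eq (degree_eq_degree_of_associated h1)
  rw [h2, natDegree_map_eq_of_injective (RingHom.injective_int _)]
  exact hr

end Vale.Agent.P018.H867P
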