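import Vale.Agent.P018.H867.Main

/-! # P018, H867P: the bound for the number of pairs when `P` is close to `X`, on both sides. -/

set_option linter.all false

namespace Vale.Agent.P018.H867P

open Polynomial NumberField Vale.Agent.P018.K Vale.Agent.P018.K2 Finset

theorem loc_params3 (d : ℕ) (hd : 3 ≤ d) (a : ℝ) (ha : 1 ≤ a) (b : ℕ → ℝ) (hb0 : b 0 = a / d)
    (hanti : ∀ r, b (r + 1) ≤ b r) (hpos : 0 < b (d - 1)) (hfin : ∑ r ∈ range d, b r < 1) :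
    ∃ ε0 η : ℝ, 0 < ε0 ∧ 0 < η ∧ ∀ ε : ℝ, 0 < ε → ε ≤ ε0 → ∀ X P : ℝ, 1 ≤ X → 1 ≤ P →
      X ^ (a - ε) ≤ P → P ≤ X ^ (a + ε) → ∃ (R : ℝ) (N : ℕ → ℕ), R = P ^ (1 / d : ℝ) ∧ 1 ≤ R ∧
        R ^ d = P ∧ (∀ r, 1 ≤ N r) ∧
        (∀ r, 1 ≤ r → r + 1 ≤ d → N r ≠ 1 → b r < b (r - 1) ∧
          ((∏ i ∈ Icc 1 r, N i : ℕ) : ℝ) ≤ R * X ^ (-(b r))) ∧
        ((∏ i ∈ Icc 1 (d - 1), N i : ℕ) : ℝ) ≤ R ∧
        ((∏ r ∈ Icc 1 (d - 1), N r ^ r : ℕ) : ℝ) *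
          (R / ((∏ i ∈ Icc 1 (d - 1), N i : ℕ) : ℝ)) ^ d ≤ 2 ^ (d * d) * X ^ (1 - η) := by
  have hd0 : (0 : ℝ) < d := by
    have : 0 < d := by omega
    exact_mod_cast this
  have hd3 : (3 : ℝ) ≤ d := by exact_mod_cast hd
  set Sb : ℝ := ∑ r ∈ range d, b r with hSb
  refine ⟨min ((1 - Sb) / 4) (1 / 2), (1 - Sb) / 2, ?_, by linarith only [hfin], ?_⟩
  · refine lt_min (by linarith only [hfin]) (by norm_num)
  intro ε hε hε0 X P hX hXP hP1 hP2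
  set ε0 : ℝ := min ((1 - Sb) / 4) (1 / 2) with hε0d
  have hε0a : ε0 ≤ (1 - Sb) / 4 := min_le_left _ _
  have hε0b : ε0 ≤ 1 / 2 := min_le_right _ _
  have hε0p : 0 < ε0 := lt_of_lt_of_le hε hε0
  have hX0 : (0 : ℝ) < X := by linarith only [hε0p, hε0b, hX]
  have hP : (0 : ℝ) < P := by linarith only [hε0p, hε0b, hXP, hX]
  have hP1' : (1 : ℝ) ≤ P := by linarith only [hXP, hX]
  set w : ℝ := a / d with hw
  have hdw : (d : ℝ) * w = a := by rw [hw]; field_simp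
  set ε' : ℝ := ε0 / d with hε'
  have hdε' : (d : ℝ) * ε' = ε0 := by rw [hε']; field_simp
  have hwε : 0 ≤ w - ε' := by
    have : (d : ℝ) * (w - ε') = a - ε0 := by rw [mul_sub, hdw, hdε']
    have h2 : 0 ≤ (d : ℝ) * (w - ε') := by rw [this]; linarith only [hε0p, hε0b, ha]
    exact le_of_mul_le_mul_left (by simpa using h2) hd0
  have hε'0 : 0 < ε' := div_pos hε0p hd0
  have hbanti : Antitone b := antitone_nat_of_succ_le hanti
  set c : ℕ → ℝ := fun r => min (b r) (w - ε') with hc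
  have hc0 : c 0 = w - ε' := by
    simp only [hc]
    rw [hb0]
    exact min_eq_right (by linarith only [hε'0])
  have hcanti : Antitone c := fun i j hij => min_le_min_right _ (hbanti hij)
  have hcpos : ∀ r, r + 1 ≤ d → 0 ≤ c r := by
    intro r hr
    refine le_min ?_ hwε
    exact le_trans hpos.le (hbanti (by omega))
  set n : ℕ → ℝ := fun r => X ^ (c (r - 1) - c r) with hn
  have hn1 : ∀ r, 1 ≤ n r := by
    intro r
    refine Real.one_le_rpow hX ?_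
    have := hcanti (Nat.sub_le r 1)
    linarith only [this]
  set N : ℕ → ℕ := fun r => ⌊n r⌋₊ with hN
  have hN1 : ∀ r, 1 ≤ N r := fun r => Nat.le_floor (by simpa using hn1 r)
  have hNn : ∀ r, (N r : ℝ) ≤ n r := fun r => Nat.floor_le (by linarith only [hn1 r, hε0p, hε0b])
  have hnN : ∀ r, n r ≤ 2 * (N r : ℝ) := by
    intro r
    have h1 := Nat.lt_floor_add_one (n r)
    have h2 : (1 : ℝ) ≤ (N r : ℝ) := by exact_mod_cast hN1 r
    have h3 : n r < (N r : ℝ) + 1 := h1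
    linarith only [h3, h2]
  have hprod : ∀ m, ((∏ i ∈ Icc 1 m, N i : ℕ) : ℝ) ≤ X ^ (w - ε' - c m) := by
    intro m
    rw [← hc0, ← lp2_prod X hX0 c m]
    push_cast
    exact Finset.prod_le_prod (fun i _ => Nat.cast_nonneg _) (fun i _ => hNn i)
  set R : ℝ := P ^ (1 / d : ℝ) with hR
  have hRd : R ^ d = P := by
    rw [hR, ← Real.rpow_natCast, ← Real.rpow_mul hP.le, one_div, inv_mul_cancel₀ hd0.ne',
      Real.rpow_one]
  have hR1 : 1 ≤ R := Real.one_le_rpow hP1' (by positivity)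
  have hRX : X ^ (w - ε') ≤ R := by
    have h1 : X ^ (a - ε0) ≤ P := by
      refine le_trans ?_ hP1
      exact Real.rpow_le_rpow_of_exponent_le hX (by linarith only [hε0])
    have h2 : X ^ (w - ε') = (X ^ (a - ε0)) ^ (1 / d : ℝ) := by
      rw [← Real.rpow_mul hX0.le]
      congr 1
      rw [hw, hε']
      field_simp
    rw [h2, hR]
    exact Real.rpow_le_rpow (Real.rpow_nonneg hX0.le _) h1 (by positivity)
  refine ⟨R, N, rfl, hR1, hRd, hN1, ?_, ?_, ?_⟩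
  · intro r hr1 hrd hNr
    have h1 : c r < c (r - 1) := by
      refine lt_of_le_of_ne (hcanti (Nat.sub_le r 1)) ?_
      intro heq
      apply hNr
      simp only [hN, hn]
      rw [heq, sub_self, Real.rpow_zero]
      simp
    have h2 : b r < b (r - 1) := by
      by_contra hh
      have : c (r - 1) ≤ c r := min_le_min_right _ (not_lt.1 hh)
      linarith only [this, h1]
    have h3 : c r = b r := by
      have h4 : c r < w - ε' := lt_of_lt_of_le h1 (min_le_right _ _)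
      rcases min_choice (b r) (w - ε') with h5 | h5
      · exact h5
      · exact absurd h4 (by simp only [hc]; rw [h5]; exact lt_irrefl _)
    refine ⟨h2, ?_⟩
    refine le_trans (hprod r) ?_
    rw [h3, sub_eq_add_neg (w - ε'), Real.rpow_add hX0]
    exact mul_le_mul_of_nonneg_right hRX (Real.rpow_nonneg hX0.le _)
  · refine le_trans (hprod (d - 1)) (le_trans ?_ hRX)
    refine Real.rpow_le_rpow_of_exponent_le hX ?_
    have := hcpos (d - 1) (by omega)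
    linarith only [this]
  · have hNpos : ∀ r, (0 : ℝ) < N r := fun r => by exact_mod_cast hN1 r
    have e1 : ((∏ r ∈ Icc 1 (d - 1), N r ^ r : ℕ) : ℝ) *
          (R / ((∏ i ∈ Icc 1 (d - 1), N i : ℕ) : ℝ)) ^ d =
        P * ∏ r ∈ Icc 1 (d - 1), ((N r : ℝ) ^ r / (N r : ℝ) ^ d) := by
      push_cast
      rw [div_pow, hRd, ← Finset.prod_pow, Finset.prod_div_distrib]
      ring
    have e2 : ∀ r, (N r : ℝ) ^ r / (N r : ℝ) ^ d ≤
        2 ^ d * X ^ (((r : ℝ) - d) * (c (r - 1) - c r)) := by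
      intro r
      have h1 : X ^ (((r : ℝ) - d) * (c (r - 1) - c r)) = n r ^ r / n r ^ d := by
        simp only [hn]
        rw [← Real.rpow_natCast, ← Real.rpow_natCast, ← Real.rpow_mul hX0.le,
          ← Real.rpow_mul hX0.le, ← Real.rpow_sub hX0]
        congr 1
        ring
      have hn0 : 0 < n r := by linarith only [hn1 r, hε0p, hε0b]
      rw [h1, ← mul_div_assoc, div_le_div_iff₀ (pow_pos (hNpos r) _) (pow_pos hn0 _)]
      have h2 : (N r : ℝ) ^ r ≤ n r ^ r := pow_le_pow_left₀ (hNpos r).le (hNn r) _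
      have h3 : n r ^ d ≤ 2 ^ d * (N r : ℝ) ^ d := by
        rw [← mul_pow]
        exact pow_le_pow_left₀ hn0.le (hnN r) _
      calc (N r : ℝ) ^ r * n r ^ d ≤ n r ^ r * (2 ^ d * (N r : ℝ) ^ d) :=
            mul_le_mul h2 h3 (pow_nonneg hn0.le _) (pow_nonneg hn0.le _)
        _ = 2 ^ d * n r ^ r * (N r : ℝ) ^ d := by ring
    have e3 : ∏ r ∈ Icc 1 (d - 1), ((N r : ℝ) ^ r / (N r : ℝ) ^ d) ≤
        2 ^ (d * (d - 1)) * X ^ (-(d : ℝ) * c 0 + ∑ r ∈ range d, c r) := by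
      refine le_trans (Finset.prod_le_prod (fun r _ => ?_) (fun r _ => e2 r)) ?_
      · exact div_nonneg (pow_nonneg (hNpos r).le _) (pow_nonneg (hNpos r).le _)
      rw [Finset.prod_mul_distrib, Finset.prod_const, Nat.card_Icc, ← pow_mul,
        ← Real.rpow_sum_of_pos hX0, lp2_sum]
      have h1 : d - 1 + 1 - 1 = d - 1 := by omega
      have h2 : d - 1 + 1 = d := by omega
      have h3 : ((d - 1 : ℕ) : ℝ) + 1 - d = 0 := by
        rw [Nat.cast_sub (by omega)]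
        push_cast
        ring
      rw [h1, h2, h3, zero_mul, sub_zero]
    have e4 : ∑ r ∈ range d, c r ≤ Sb := Finset.sum_le_sum fun r _ => min_le_left _ _
    rw [e1]
    calc P * ∏ r ∈ Icc 1 (d - 1), ((N r : ℝ) ^ r / (N r : ℝ) ^ d)
        ≤ X ^ (a + ε) * (2 ^ (d * (d - 1)) * X ^ (-(d : ℝ) * c 0 + ∑ r ∈ range d, c r)) :=
          mul_le_mul hP2 e3 (Finset.prod_nonneg fun r _ =>
            div_nonneg (pow_nonneg (hNpos r).le _) (pow_nonneg (hNpos r).le _))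
            (Real.rpow_nonneg hX0.le _)
      _ = 2 ^ (d * (d - 1)) * X ^ ((a + ε) + (-(d : ℝ) * c 0 + ∑ r ∈ range d, c r)) := by
          rw [Real.rpow_add hX0 (a + ε)]
          ring
      _ ≤ 2 ^ (d * d) * X ^ (1 - (1 - Sb) / 2) := by
          refine mul_le_mul ?_ ?_ (Real.rpow_nonneg hX0.le _) (by positivity)
          · exact pow_le_pow_right₀ (by norm_num) (Nat.mul_le_mul_left _ (Nat.sub_le _ _))
          · refine Real.rpow_le_rpow_of_exponent_le hX ?_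
            rw [hc0]
            have : -(d : ℝ) * (w - ε') = -a + ε0 := by
              rw [neg_mul, mul_sub, hdw, hdε']
              ring
            rw [this]
            linarith only [hε0, hε0a, e4]

theorem lb3_scale (L : Type) [Field L] [NumberField L] {d : ℕ} (hd : 1 ≤ d) (θ : Fin d → 𝓞 L)
    (k : ℕ) (hk : 1 ≤ k) (r : ℕ) (a b : ℝ) (hb : 0 < b) (hcrit : Crit d k r a b) (A0 : ℝ)
    (hA0 : 1 ≤ A0) (Cs : ℕ) :
    ∃ (D : ℕ) (ε1 : ℝ) (X1 : ℕ), 0 < ε1 ∧ ∀ (X P R : ℝ) (H : ℕ), (X1 : ℝ) ≤ X → 1 ≤ X → 0 < P →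
      X ^ (a - ε1) ≤ P → P ≤ X ^ (a + ε1) → R = P ^ (1 / d : ℝ) → 1 ≤ R → 1 ≤ H →
      (H : ℝ) ≤ R * X ^ (-b) → ∀ (c : ℤ) (y0 : Fin d → ℤ) (Q : Finset (ℤ × (Fin d → ℤ))),
      c ≠ 0 → |c| ≤ Cs → (∀ q ∈ Q, ∀ j, y0 j ≤ q.2 j ∧ q.2 j < y0 j + H) →
      Pts L θ k A0 X R c Q → RelAll L θ r D Q := by
  obtain ⟨T, lam, B, V, hlam, hB, hV, hc⟩ := hcrit
  obtain ⟨ε1, hε1, δ, hδ, hprod⟩ := loc_prod_le d hd a b T lam hlam B
    (fun p hp => (hB p hp).1) V hV hc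
  obtain ⟨K, D, hK, hrel⟩ := loc_rel L hd θ k hk r B (fun p hp => (hB p hp).2) A0 hA0 Cs
  refine ⟨D, ε1, ⌈K ^ (1 / δ)⌉₊ + 1, hε1, ?_⟩
  intro X P R H hX1 hX hXP hP1 hP2 hR hR1 hH hHρ c y0 Q hc0 hcs hcube hpts I hI
  have hX0 : 0 < X := by linarith only [hX]
  have hKV : K * X ^ (-δ) < 1 := by
    rw [Real.rpow_neg hX0.le, mul_inv_lt_iff₀ (by positivity), one_mul]
    have h1 : K ^ (1 / δ) < X := by
      have h2 := Nat.le_ceil (K ^ (1 / δ))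
      push_cast at hX1
      linarith only [hX1, h2]
    calc K = (K ^ (1 / δ)) ^ δ := by
          rw [← Real.rpow_mul hK.le, one_div, inv_mul_cancel₀ hδ.ne', Real.rpow_one]
      _ < X ^ δ := Real.rpow_lt_rpow (by positivity) h1 hδ
  have hb1 : X ^ (-b) ≤ 1 := Real.rpow_le_one_of_one_le_of_nonpos hX (by linarith only [hb])
  have hρ0 : 0 < R * X ^ (-b) := by positivity
  have hρR : R * X ^ (-b) ≤ R := by
    calc R * X ^ (-b) ≤ R * 1 := mul_le_mul_of_nonneg_left hb1 (by linarith only [hR1])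
      _ = R := mul_one _
  have hρdiv : R * X ^ (-b) / R = X ^ (-b) := by
    rw [mul_comm, mul_div_assoc, div_self (by linarith only [hρR, hρ0]), mul_one]
  refine hrel X R (R * X ^ (-b)) (X ^ (-δ)) H hX hR1 hρ0 hρR (by positivity) hH hHρ hKV ?_ c y0 Q
    hc0 hcs hcube hpts.1 hpts.2.1 hpts.2.2.1 hpts.2.2.2 I hI
  intro m hm1 hm2
  rw [hρdiv, hR]
  exact hprod X P hX (by linarith only [hX0, hXP]) hP1 hP2 m hm1 hm2

theorem loc_mult_n3 (f : ℤ[X]) (hirr : Irreducible (f.map (Int.castRingHom ℚ))) (k : ℕ)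
    (hk : 1 ≤ k) : ∃ D1 : ℕ, ∀ X P p : ℕ, X ≤ P ^ k → P < p → p.Prime →
      ((Finset.Icc 1 X).filter (fun n : ℕ => (p : ℤ) ^ k ∣ f.eval (n : ℤ))).card ≤ D1 := by
  obtain ⟨D, hD⟩ := sv_rho_bound f k hk hirr
  refine ⟨D, fun X P p hXP hPp hp => le_trans ?_ (hD p hp)⟩
  unfold rho
  apply Finset.card_le_card
  intro n hn
  rw [Finset.mem_filter, Finset.mem_Icc] at hn
  rw [Finset.mem_filter, Finset.mem_range]
  refine ⟨?_, by push_cast; exact hn.2⟩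
  have h1 : P ^ k < p ^ k := Nat.pow_lt_pow_left hPp (by omega)
  omega

theorem loc_mult_p3 (f : ℤ[X]) (hirr : Irreducible (f.map (Int.castRingHom ℚ)))
    (hd : 2 ≤ f.natDegree) (k : ℕ) (hk : 2 ≤ k) : ∃ X1 : ℕ, ∀ X P : ℕ, X1 ≤ X → X ≤ P ^ 2 → ∀ n : ℕ,
      ((pairs f k X P).filter (fun z => z.1 = n)).card ≤ f.natDegree := by
  classical
  refine ⟨cSum f + 2, fun X P hX hXP n => ?_⟩
  rcases ((pairs f k X P).filter (fun z => z.1 = n)).eq_empty_or_nonempty with h0 | ⟨z0, hz0⟩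
  · rw [h0]; simp
  set F := (pairs f k X P).filter (fun z => z.1 = n) with hF
  have hmem : ∀ z ∈ F, z.1 = n ∧ 1 ≤ n ∧ n ≤ X ∧ P < z.2 ∧ z.2.Prime ∧
      (z.2 : ℤ) ^ k ∣ f.eval (n : ℤ) := by
    intro z hz
    rw [hF, Finset.mem_filter, pairs, Finset.mem_filter, Finset.mem_product, Finset.mem_Icc,
      Finset.mem_Ioc] at hz
    obtain ⟨⟨⟨h1, h2⟩, h3, h4⟩, h5⟩ := hz
    rw [h5] at h1 h4
    exact ⟨h5, h1.1, h1.2, h2.1, h3, h4⟩
  have hcard : F.card = (F.image Prod.snd).card := by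
    rw [Finset.card_image_of_injOn]
    intro x hx y hy hxy
    exact Prod.ext ((hmem x hx).1.trans (hmem y hy).1.symm) hxy
  have hdvd : ∏ p ∈ F.image Prod.snd, (p : ℤ) ^ k ∣ f.eval (n : ℤ) := by
    apply Finset.prod_dvd_of_coprime
    · intro p hp q hq hpq
      obtain ⟨z, hz, rfl⟩ := Finset.mem_image.1 (Finset.mem_coe.1 hp)
      obtain ⟨w, hw, rfl⟩ := Finset.mem_image.1 (Finset.mem_coe.1 hq)
      apply IsCoprime.pow
      rw [Int.isCoprime_iff_gcd_eq_one]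
      have := (Nat.coprime_primes (hmem z hz).2.2.2.2.1 (hmem w hw).2.2.2.2.1).2 hpq
      simpa [Int.gcd] using this
    · intro p hp
      obtain ⟨z, hz, rfl⟩ := Finset.mem_image.1 hp
      exact (hmem z hz).2.2.2.2.2
  have hne := eval_ne_zero_of_irreducible f hirr hd (n : ℤ)
  have h1 := Int.natAbs_dvd_natAbs.2 hdvd
  have h2 := Nat.le_of_dvd (Int.natAbs_pos.2 hne) h1
  have h3 : (∏ p ∈ F.image Prod.snd, (p : ℤ) ^ k).natAbs = ∏ p ∈ F.image Prod.snd, p ^ k := by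
    have : (∏ p ∈ F.image Prod.snd, (p : ℤ) ^ k) = ((∏ p ∈ F.image Prod.snd, p ^ k : ℕ) : ℤ) := by
      push_cast
      rfl
    rw [this, Int.natAbs_natCast]
  rw [h3] at h2
  have h4 : X ^ (F.image Prod.snd).card ≤ ∏ p ∈ F.image Prod.snd, p ^ k := by
    rw [← Finset.prod_const]
    apply Finset.prod_le_prod'
    intro p hp
    obtain ⟨z, hz, rfl⟩ := Finset.mem_image.1 hp
    have h5 := (hmem z hz).2.2.2.1
    have h6 : z.2 ^ 2 ≤ z.2 ^ k := Nat.pow_le_pow_right (by omega) hk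
    have h6' : P ^ 2 ≤ z.2 ^ 2 := Nat.pow_le_pow_left h5.le 2
    omega
  have h7 := abs_eval_le f (show 1 ≤ X by omega) (hmem z0 hz0).2.2.1
  have h8 : cSum f * X ^ f.natDegree < X ^ (f.natDegree + 1) := by
    rw [pow_succ, mul_comm]
    exact Nat.mul_lt_mul_of_pos_left (by omega) (Nat.pow_pos (by omega))
  have h9 : X ^ (F.image Prod.snd).card < X ^ (f.natDegree + 1) :=
    lt_of_le_of_lt (h4.trans (h2.trans h7)) h8
  have h10 := (Nat.pow_lt_pow_iff_right (show 1 < X by omega)).1 h9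
  rw [hcard]
  omega

theorem loc_cls3 {d : ℕ} (f : ℤ[X]) (k X P D1 Cc H r : ℕ) (a0 : ℤ) (ha0 : a0 ≠ 0)
    (L : Type) [Field L] [NumberField L] (θ : Fin d → 𝓞 L)
    (hD1 : ∀ p : ℕ, P < p → p.Prime →
      ((Finset.Icc 1 X).filter (fun n : ℕ => (p : ℤ) ^ k ∣ f.eval (n : ℤ))).card ≤ D1)
    (hX1 : ∀ n : ℕ, ((pairs f k X P).filter (fun z => z.1 = n)).card ≤ d)
    (A0 R : ℝ) (hR0 : 0 ≤ R) (hRd : R ^ d = P) (hA0 : |(a0 : ℝ)| ≤ A0)
    (Y : ℕ × ℕ → Fin d → ℤ) (cc : ℕ × ℕ → ℤ) (Γ : ℕ × ℕ → Fin d → 𝓞 L) (Cs : ℕ)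
    (hcc0 : ∀ z ∈ pairs f k X P, cc z ≠ 0) (hccs : ∀ z ∈ pairs f k X P, |cc z| ≤ Cs)
    (hY : ∀ z ∈ pairs f k X P, ∀ j, |(Y z j : ℝ)| ≤ 2 * R)
    (hN : ∀ z ∈ pairs f k X P, ∏ i, ell (θ i) (Y z) = (((z.2 : ℤ) * cc z : ℤ) : 𝓞 L))
    (hΓ : ∀ z ∈ pairs f k X P, ∀ i, (cc z : 𝓞 L) ^ k * (((a0 * z.1 : ℤ) : 𝓞 L) - θ i) =
      ell (θ i) (Y z) ^ k * Γ z i)
    (hclass : ∀ (c : ℤ) (y0 : Fin d → ℤ) (Q : Finset (ℤ × (Fin d → ℤ))), c ≠ 0 → |c| ≤ Cs →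
      (∀ q ∈ Q, ∀ j, y0 j ≤ q.2 j ∧ q.2 j < y0 j + H) →
      (∀ q ∈ Q, ∀ q' ∈ Q, q.2 = q'.2 → q = q') →
      (∀ n : ℤ, (Q.filter (fun q => q.1 = n)).card ≤ d) →
      (∀ q ∈ Q, |(q.1 : ℝ)| ≤ A0 * X) →
      (∀ q ∈ Q, ∀ j, |(q.2 j : ℝ)| ≤ 2 * R) →
      (∀ q ∈ Q, ∃ N : ℤ, ∏ i, ell (θ i) q.2 = (N : 𝓞 L) ∧ R ^ d ≤ |(N : ℝ)|) →
      (∀ q ∈ Q, ∃ γ : Fin d → 𝓞 L, ∀ i,
        (c : 𝓞 L) ^ k * ((q.1 : 𝓞 L) - θ i) = ell (θ i) q.2 ^ k * γ i) →
      Q.card ≤ Cc * H ^ r) (hH : 1 ≤ H) (κ : ℤ × (Fin d → ℤ)) :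
    ((pairs f k X P).filter (fun z => (cc z, fun j => Y z j / (H : ℤ)) = κ)).card ≤
      D1 * (Cc * H ^ r) := by
  classical
  have hHz : (0 : ℤ) < (H : ℤ) := by exact_mod_cast hH
  have hmem : ∀ z ∈ pairs f k X P, 1 ≤ z.1 ∧ z.1 ≤ X ∧ P < z.2 ∧ z.2 ≤ 2 * P ∧ z.2.Prime ∧
      (z.2 : ℤ) ^ k ∣ f.eval (z.1 : ℤ) := by
    intro z hz
    rw [pairs, Finset.mem_filter, Finset.mem_product, Finset.mem_Icc, Finset.mem_Ioc] at hz
    exact ⟨hz.1.1.1, hz.1.1.2, hz.1.2.1, hz.1.2.2, hz.2.1, hz.2.2⟩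
  set Sκ := (pairs f k X P).filter (fun z => (cc z, fun j => Y z j / (H : ℤ)) = κ) with hSκ
  have hS : ∀ z ∈ Sκ, z ∈ pairs f k X P ∧ cc z = κ.1 ∧ ∀ j, Y z j / (H : ℤ) = κ.2 j := by
    intro z hz
    rw [hSκ, Finset.mem_filter] at hz
    refine ⟨hz.1, ?_, fun j => ?_⟩
    · rw [← hz.2]
    · rw [← hz.2]
  have h1 : Sκ.card ≤ D1 * (Sκ.image Y).card := by
    apply Finset.card_le_mul_card_image
    intro y hy
    obtain ⟨z0, hz0, rfl⟩ := Finset.mem_image.1 hy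
    refine le_trans ?_ (hD1 z0.2 (hmem z0 (hS z0 hz0).1).2.2.1
      (hmem z0 (hS z0 hz0).1).2.2.2.2.1)
    have hp : ∀ z ∈ Sκ.filter (fun z => Y z = Y z0), z.2 = z0.2 := by
      intro z hz
      rw [Finset.mem_filter] at hz
      have e1 := hN z (hS z hz.1).1
      have e2 := hN z0 (hS z0 hz0).1
      rw [hz.2, e2] at e1
      have e3 : (z0.2 : ℤ) * cc z0 = (z.2 : ℤ) * cc z := by exact_mod_cast e1
      rw [(hS z hz.1).2.1, (hS z0 hz0).2.1] at e3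
      have e4 : κ.1 ≠ 0 := by
        rw [← (hS z0 hz0).2.1]
        exact hcc0 z0 (hS z0 hz0).1
      have e5 := mul_right_cancel₀ e4 e3
      exact_mod_cast e5.symm
    apply Finset.card_le_card_of_injOn Prod.fst
    · intro z hz
      have hz' := Finset.mem_coe.1 hz
      have hz2 := hp z hz'
      rw [Finset.mem_filter] at hz'
      have hz3 := hmem z (hS z hz'.1).1
      rw [Finset.mem_coe, Finset.mem_filter, Finset.mem_Icc]
      rw [hz2] at hz3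
      exact ⟨⟨hz3.1, hz3.2.1⟩, hz3.2.2.2.2.2⟩
    · intro z hz w hw hzw
      exact Prod.ext hzw ((hp z hz).trans (hp w hw).symm)
  refine h1.trans (Nat.mul_le_mul_left _ ?_)
  rcases Sκ.eq_empty_or_nonempty with h0 | ⟨z0, hz0⟩
  · rw [h0]; simp
  have hg : ∀ y ∈ Sκ.image Y, ∃ z ∈ Sκ, Y z = y := fun y hy => Finset.mem_image.1 hy
  choose! g hg1 hg2 using hg
  set Q : Finset (ℤ × (Fin d → ℤ)) := (Sκ.image Y).image (fun y => ((a0 * (g y).1 : ℤ), y)) with hQ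
  have hQcard : (Sκ.image Y).card = Q.card := by
    rw [hQ]
    exact (Finset.card_image_of_injective _ (fun x y hxy => (Prod.ext_iff.1 hxy).2)).symm
  have hQm : ∀ q ∈ Q, ∃ z ∈ Sκ, q = ((a0 * z.1 : ℤ), Y z) ∧ z = g q.2 := by
    intro q hq
    obtain ⟨y, hy, rfl⟩ := Finset.mem_image.1 hq
    exact ⟨g y, hg1 y hy, by rw [hg2 y hy], rfl⟩
  rw [hQcard]
  apply hclass κ.1 (fun j => H * κ.2 j) Q
  · rw [← (hS z0 hz0).2.1]
    exact hcc0 z0 (hS z0 hz0).1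
  · rw [← (hS z0 hz0).2.1]
    exact hccs z0 (hS z0 hz0).1
  · intro q hq j
    obtain ⟨z, hz, rfl, -⟩ := hQm q hq
    have h2 := (hS z hz).2.2 j
    have h3 := Int.emod_add_mul_ediv (Y z j) H
    have h4 := Int.emod_nonneg (Y z j) hHz.ne'
    have h5 := Int.emod_lt_of_pos (Y z j) hHz
    simp only
    rw [← h2]
    constructor <;> linarith
  · intro q hq q' hq' h
    obtain ⟨z, hz, e1, e2⟩ := hQm q hq
    obtain ⟨z', hz', e1', e2'⟩ := hQm q' hq'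
    rw [e1, e1', e2, e2', h]
  · intro n
    rcases (Q.filter (fun q => q.1 = n)).eq_empty_or_nonempty with h0 | ⟨q1, hq1⟩
    · rw [h0]; simp
    · rw [Finset.mem_filter] at hq1
      obtain ⟨z1, hz1, e1, -⟩ := hQm q1 hq1.1
      refine le_trans ?_ (hX1 z1.1)
      apply Finset.card_le_card_of_injOn (fun q => g q.2)
      · intro q hq
        have hq' := Finset.mem_coe.1 hq
        rw [Finset.mem_filter] at hq'
        obtain ⟨z, hz, e2, e3⟩ := hQm q hq'.1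
        rw [Finset.mem_coe, Finset.mem_filter]
        simp only
        rw [← e3]
        refine ⟨(hS z hz).1, ?_⟩
        have e4 : a0 * (z.1 : ℤ) = a0 * (z1.1 : ℤ) := by
          have e5 : q.1 = a0 * (z.1 : ℤ) := by rw [e2]
          have e6 : q1.1 = a0 * (z1.1 : ℤ) := by rw [e1]
          rw [← e5, ← e6, hq'.2, hq1.2]
        exact_mod_cast mul_left_cancel₀ ha0 e4
      · intro q hq w hw hqw
        have hq' := Finset.mem_coe.1 hq
        have hw' := Finset.mem_coe.1 hw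
        rw [Finset.mem_filter] at hq' hw'
        obtain ⟨z, hz, e2, e3⟩ := hQm q hq'.1
        obtain ⟨z', hz', e2', e3'⟩ := hQm w hw'.1
        simp only at hqw
        rw [e2, e2', e3, e3', hqw]
  · intro q hq
    obtain ⟨z, hz, rfl, -⟩ := hQm q hq
    have h2 : (z.1 : ℝ) ≤ X := by exact_mod_cast (hmem z (hS z hz).1).2.1
    simp only
    push_cast
    rw [abs_mul, abs_of_nonneg (show (0 : ℝ) ≤ (z.1 : ℝ) by (clear * -; positivity))]
    exact mul_le_mul hA0 h2 (by (clear * -; positivity)) (le_trans (abs_nonneg _) hA0)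
  · intro q hq j
    obtain ⟨z, hz, rfl, -⟩ := hQm q hq
    exact hY z (hS z hz).1 j
  · intro q hq
    obtain ⟨z, hz, rfl, -⟩ := hQm q hq
    refine ⟨(z.2 : ℤ) * cc z, hN z (hS z hz).1, ?_⟩
    have h2 : (P : ℝ) < z.2 := by exact_mod_cast (hmem z (hS z hz).1).2.2.1
    have h3 : (1 : ℝ) ≤ |(cc z : ℝ)| := by
      have := Int.one_le_abs (hcc0 z (hS z hz).1)
      exact_mod_cast this
    rw [hRd]
    push_cast
    rw [abs_mul, abs_of_nonneg (show (0 : ℝ) ≤ (z.2 : ℝ) by (clear * -; positivity))]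
    nlinarith
  · intro q hq
    obtain ⟨z, hz, rfl, -⟩ := hQm q hq
    refine ⟨Γ z, fun i => ?_⟩
    rw [← (hS z hz).2.1]
    exact hΓ z (hS z hz).1 i

theorem local_bound3 (f : ℤ[X]) (hirr : Irreducible (f.map (Int.castRingHom ℚ))) (k : ℕ)
    (hk : 2 ≤ k) (hd3 : 3 ≤ f.natDegree) (a : ℝ) (ha : 1 ≤ a) (hadm : Adm2 f.natDegree k a) :
    ∃ ε η K : ℝ, 0 < ε ∧ 0 < η ∧ 0 < K ∧ ∃ X0 : ℕ, ∀ X P : ℕ, X0 ≤ X → X ≤ P ^ 2 →
      (X : ℝ) ^ (a - ε) ≤ P → (P : ℝ) ≤ (X : ℝ) ^ (a + ε) →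
      ((pairs f k X P).card : ℝ) ≤ K * (X : ℝ) ^ (1 - η) := by
  classical
  obtain ⟨b, hb0, hanti, hpos, hcrit, hfin⟩ := hadm
  obtain ⟨L, _, _, θ, G, a0, ha0, hGm, hGd, hGi, hθ, hGθ, hGe⟩ := exists_field f hirr (by omega)
  have hdr : (3 : ℝ) ≤ f.natDegree := by exact_mod_cast (show 3 ≤ f.natDegree by omega)
  obtain ⟨Cs, hCs1, hsmall⟩ := exists_small L (by omega) G hGm hGd hGi θ hGθ k (by omega)
  obtain ⟨D1, hD1⟩ := loc_mult_n3 f hirr k (by omega)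
  obtain ⟨X1, hX1⟩ := loc_mult_p3 f hirr (by omega) k hk
  have hA0 : (1 : ℝ) ≤ |(a0 : ℝ)| + 1 := by linarith only [abs_nonneg (a0 : ℝ)]
  have hanti' : Antitone b := antitone_nat_of_succ_le hanti
  -- the scales
  have hscale : ∀ r : ℕ, ∃ (D : ℕ) (ε1 : ℝ) (X1 : ℕ), 0 < ε1 ∧ (1 ≤ r → r + 1 ≤ f.natDegree →
      b r < b (r - 1) → ∀ (X P R : ℝ) (H : ℕ), (X1 : ℝ) ≤ X → 1 ≤ X → 0 < P →
      X ^ (a - ε1) ≤ P → P ≤ X ^ (a + ε1) → R = P ^ (1 / f.natDegree : ℝ) → 1 ≤ R → 1 ≤ H →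
      (H : ℝ) ≤ R * X ^ (-(b r)) → ∀ (c : ℤ) (y0 : Fin f.natDegree → ℤ)
      (Q : Finset (ℤ × (Fin f.natDegree → ℤ))),
      c ≠ 0 → |c| ≤ Cs → (∀ q ∈ Q, ∀ j, y0 j ≤ q.2 j ∧ q.2 j < y0 j + H) →
      Pts L θ k (|(a0 : ℝ)| + 1) X R c Q → RelAll L θ r D Q) := by
    intro r
    by_cases hr : 1 ≤ r ∧ r + 1 ≤ f.natDegree ∧ b r < b (r - 1)
    · have hbr : 0 < b r := lt_of_lt_of_le hpos (hanti' (by omega))
      obtain ⟨D, ε1, X1, hε1, h⟩ := lb3_scale L (by omega) θ k (by omega) r a (b r) hbr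
        (hcrit r hr.1 hr.2.1 hr.2.2) (|(a0 : ℝ)| + 1) hA0 Cs
      exact ⟨D, ε1, X1, hε1, fun _ _ _ => h⟩
    · exact ⟨0, 1, 0, one_pos, fun h1 h2 h3 => absurd ⟨h1, h2, h3⟩ hr⟩
  choose Dr εr Xr hεr hrel using hscale
  obtain ⟨D, hD⟩ := lb2_max f.natDegree Dr
  obtain ⟨X2, hX2⟩ := lb2_max f.natDegree Xr
  obtain ⟨ε2, hε2, hεmin⟩ := lb2_min f.natDegree εr hεr
  obtain ⟨ε0, η, hε0, hη0, hparams⟩ := loc_params3 f.natDegree (by omega) a ha b hb0 hanti hpos hfin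
  obtain ⟨Cm, hmulti⟩ := multi_count f.natDegree D f.natDegree
  refine ⟨min ε0 ε2, η,
    (D1 : ℝ) * Cm * (2 * Cs + 1) * 9 ^ f.natDegree * 2 ^ (f.natDegree * f.natDegree) + 1,
    lt_min hε0 hε2, hη0, by (clear * - hCs1; positivity), max (max X1 ((Cs + 2) ^ 2)) X2, ?_⟩
  intro X P hX hXP hP1 hP2
  have hXX1 : X1 ≤ X := le_trans (le_trans (le_max_left _ _) (le_max_left _ _)) hX
  have hXCs2 : (Cs + 2) ^ 2 ≤ X := le_trans (le_trans (le_max_right _ _) (le_max_left _ _)) hX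
  have hXCs : Cs + 2 ≤ X := (Nat.le_self_pow (by norm_num) _).trans hXCs2
  have hPCs : Cs + 2 ≤ P := (Nat.pow_le_pow_iff_left (by norm_num)).1 (hXCs2.trans hXP)
  have hXX2 : X2 ≤ X := le_trans (le_max_right _ _) hX
  have hXr2 : (2 : ℝ) ≤ X := by exact_mod_cast (show 2 ≤ X by omega)
  have hXr1 : (1 : ℝ) ≤ X := by linarith only [hXr2]
  have hXr0 : (0 : ℝ) < X := by linarith only [hXr2]
  have hP0 : 0 < P := by
    rcases Nat.eq_zero_or_pos P with h | h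
    · rw [h] at hXP
      omega
    · exact h
  have hXPk : X ≤ P ^ k := hXP.trans (Nat.pow_le_pow_right hP0 hk)
  have hPr1 : (1 : ℝ) ≤ P := by exact_mod_cast hP0
  have hPr0 : (0 : ℝ) < P := by linarith only [hPr1]
  obtain ⟨R, N, hR, hR1, hRd, hN1, hNr, hHR, hfinal⟩ := hparams (min ε0 ε2) (lt_min hε0 hε2)
    (min_le_left _ _) X P hXr1 hPr1 hP1 hP2
  obtain ⟨H, hH⟩ : ∃ H : ℕ, H = ∏ i ∈ Icc 1 (f.natDegree - 1), N i := ⟨_, rfl⟩
  have hH1 : 1 ≤ H := by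
    rw [hH]
    exact Nat.one_le_iff_ne_zero.2 (Finset.prod_ne_zero_iff.2 fun i _ =>
      Nat.one_le_iff_ne_zero.1 (hN1 i))
  -- data attached to a pair
  have hdata : ∀ z ∈ pairs f k X P, ∃ (y : Fin f.natDegree → ℤ) (c : ℤ)
      (γ : Fin f.natDegree → 𝓞 L),
      (∀ j, |(y j : ℝ)| ≤ 2 * R) ∧ c ≠ 0 ∧ |c| ≤ Cs ∧
        (∏ i, ell (θ i) y = (((z.2 : ℤ) * c : ℤ) : 𝓞 L)) ∧
        ∀ i, (c : 𝓞 L) ^ k * (((a0 * z.1 : ℤ) : 𝓞 L) - θ i) = ell (θ i) y ^ k * γ i := by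
    intro z hz
    rw [pairs, Finset.mem_filter, Finset.mem_product, Finset.mem_Icc, Finset.mem_Ioc] at hz
    obtain ⟨⟨h1, h2⟩, h3, h4⟩ := hz
    obtain ⟨y, c, γ, -, h5, h6, h7, h8, h9⟩ := hsmall z.2 (a0 * z.1) h3 (by omega) (by
      rw [hGe]
      exact h4.mul_left _)
    refine ⟨y, c, γ, fun j => ?_, h6, h7, h8, h9⟩
    have h10 : |(y j : ℝ)| ^ f.natDegree ≤ (2 * R) ^ f.natDegree := by
      have h11 : (|(y j : ℝ)|) ^ f.natDegree ≤ (z.2 : ℝ) := by exact_mod_cast h5 j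
      have h12 : (z.2 : ℝ) ≤ 2 * P := by exact_mod_cast h2.2
      rw [mul_pow, hRd]
      have h13 : (2 : ℝ) ≤ 2 ^ f.natDegree := by
        calc (2 : ℝ) = 2 ^ 1 := by norm_num
          _ ≤ 2 ^ f.natDegree := pow_le_pow_right₀ (by norm_num) (by omega)
      nlinarith
    exact (pow_le_pow_iff_left₀ (abs_nonneg _) (by linarith only [hR1]) (by omega)).1 h10
  choose! Y cc Γ hY hcc0 hccs hN hΓ using hdata
  -- the class bound
  have hclass : ∀ (c : ℤ) (y0 : Fin f.natDegree → ℤ) (Q : Finset (ℤ × (Fin f.natDegree → ℤ))),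
      c ≠ 0 → |c| ≤ Cs →
      (∀ q ∈ Q, ∀ j, y0 j ≤ q.2 j ∧ q.2 j < y0 j + H) →
      (∀ q ∈ Q, ∀ q' ∈ Q, q.2 = q'.2 → q = q') →
      (∀ n : ℤ, (Q.filter (fun q => q.1 = n)).card ≤ f.natDegree) →
      (∀ q ∈ Q, |(q.1 : ℝ)| ≤ (|(a0 : ℝ)| + 1) * X) →
      (∀ q ∈ Q, ∀ j, |(q.2 j : ℝ)| ≤ 2 * R) →
      (∀ q ∈ Q, ∃ N : ℤ, ∏ i, ell (θ i) q.2 = (N : 𝓞 L) ∧ R ^ f.natDegree ≤ |(N : ℝ)|) →
      (∀ q ∈ Q, ∃ γ : Fin f.natDegree → 𝓞 L, ∀ i,
        (c : 𝓞 L) ^ k * ((q.1 : 𝓞 L) - θ i) = ell (θ i) q.2 ^ k * γ i) →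
      Q.card ≤ (Cm * ∏ r ∈ Icc 1 (f.natDegree - 1), N r ^ r) * H ^ 0 := by
    intro c y0 Q h1 h2 h3 h4 h5 h6 h7 h8 h9
    rw [pow_zero, mul_one]
    have h10 := hmulti L (fun i => ((θ i : 𝓞 L) : L))
      (fun i j h => hθ (RingOfIntegers.ext h)) N hN1 Q h4 h5 (by
        intro r hr hrd hNr1 y1 I hI
        obtain ⟨hbr, hHr⟩ := hNr r hr hrd hNr1
        set Q1 := Q.filter (fun q => ∀ j, y1 j ≤ q.2 j ∧
          q.2 j < y1 j + ((∏ i ∈ Icc 1 r, N i : ℕ) : ℤ)) with hQ1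
        have hsub : ∀ q ∈ Q1, q ∈ Q := fun q hq => (Finset.mem_filter.1 hq).1
        have hHr1 : 1 ≤ ∏ i ∈ Icc 1 r, N i := Nat.one_le_iff_ne_zero.2
          (Finset.prod_ne_zero_iff.2 fun i _ => Nat.one_le_iff_ne_zero.1 (hN1 i))
        have hεr' : min ε0 ε2 ≤ εr r := (min_le_right _ _).trans (hεmin r (by omega))
        have h11 := hrel r hr hrd hbr X P R (∏ i ∈ Icc 1 r, N i)
          (by exact_mod_cast (hX2 r (by omega)).trans hXX2) hXr1 hPr0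
          ((Real.rpow_le_rpow_of_exponent_le hXr1 (by linarith only [hεr'])).trans hP1)
          (hP2.trans (Real.rpow_le_rpow_of_exponent_le hXr1 (by linarith only [hεr']))) hR hR1 hHr1 hHr c y1
          Q1 h1 h2 (fun q hq => (Finset.mem_filter.1 hq).2)
          ⟨fun q hq => h6 q (hsub q hq), fun q hq => h7 q (hsub q hq),
            fun q hq => h8 q (hsub q hq), fun q hq => h9 q (hsub q hq)⟩ I hI
        obtain ⟨F, hF0, hFd, hF⟩ := h11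
        refine ⟨F, hF0, fun a ha => ⟨(hFd a ha).1.trans (hD r (by omega)),
          (hFd a ha).2.trans (hD r (by omega))⟩, fun q hq hq2 => ?_⟩
        exact hF q (Finset.mem_filter.2 ⟨hq, hq2⟩)) y0
    rw [← hH] at h10
    rw [Finset.filter_true_of_mem h3] at h10
    exact h10
  have hcount := loc_count_classes (pairs f k X P) Y cc Cs
    (D1 * ((Cm * ∏ r ∈ Icc 1 (f.natDegree - 1), N r ^ r) * H ^ 0)) H R hH1
    (by rw [hH]; exact hHR) hccs hY (fun κ => loc_cls3 f k X P D1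
      (Cm * ∏ r ∈ Icc 1 (f.natDegree - 1), N r ^ r) H 0 a0 ha0 L θ (fun p hp1 hp2 => hD1 X P p hXPk hp1 hp2)
      (hX1 X P hXX1 hXP) (|(a0 : ℝ)| + 1) R (by linarith only [hR1]) hRd (by linarith only []) Y cc Γ Cs hcc0 hccs
      hY hN hΓ hclass hH1 κ)
  refine hcount.trans ?_
  rw [← hH] at hfinal
  have h20 : ((D1 * ((Cm * ∏ r ∈ Icc 1 (f.natDegree - 1), N r ^ r) * H ^ 0) : ℕ) : ℝ) *
      ((2 * Cs + 1) * (9 * (R / H)) ^ f.natDegree) =
      (D1 : ℝ) * Cm * (2 * Cs + 1) * 9 ^ f.natDegree *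
        (((∏ r ∈ Icc 1 (f.natDegree - 1), N r ^ r : ℕ) : ℝ) * (R / H) ^ f.natDegree) := by
    rw [mul_pow]
    push_cast
    ring
  rw [h20]
  have h21 : (D1 : ℝ) * Cm * (2 * Cs + 1) * 9 ^ f.natDegree *
        (((∏ r ∈ Icc 1 (f.natDegree - 1), N r ^ r : ℕ) : ℝ) * (R / H) ^ f.natDegree) ≤
      (D1 : ℝ) * Cm * (2 * Cs + 1) * 9 ^ f.natDegree *
        (2 ^ (f.natDegree * f.natDegree) * (X : ℝ) ^ (1 - η)) :=
    mul_le_mul_of_nonneg_left hfinal (by (clear * - hCs1; positivity))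
  refine h21.trans ?_
  have h22 : 0 ≤ (X : ℝ) ^ (1 - η) := by (clear * - hXr2; positivity)
  linarith only [h22]

end Vale.Agent.P018.H867P
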