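import Vale.Agent.P018.H867P.Loc
import Vale.Agent.P018.H867P.AdmOne

/-! # P018, H867P: the tail bound with a power saving, from primes `p > X ^ (1 - ε)` on. -/

namespace Vale.Agent.P018.H867P

open Polynomial Filter Topology Vale.Agent.P018.H867

open Classical in
/-- the number of `1 ≤ n ≤ X` with `p ^ k ∣ f(n)` for some prime `p > X ^ (1 - ε)`. -/
noncomputable def tail2 (f : ℤ[X]) (k : ℕ) (ε : ℝ) (X : ℕ) : ℕ :=
  ((Finset.Icc 1 X).filter (fun n : ℕ => ∃ p : ℕ, p.Prime ∧ (X : ℝ) ^ (1 - ε) < p ∧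
    (p : ℤ) ^ k ∣ f.eval (n : ℤ))).card

/-- the tail bound with a power saving. -/
def TailPow (f : ℤ[X]) (k : ℕ) : Prop :=
  ∃ ε δ C : ℝ, 0 < ε ∧ ε < 1 ∧ 0 < δ ∧ 0 ≤ C ∧ ∀ X : ℕ, 1 ≤ X →
    (tail2 f k ε X : ℝ) ≤ C * (X : ℝ) ^ (1 - δ)

theorem tail2_triv (f : ℤ[X]) (k : ℕ) (ε : ℝ) (X : ℕ) : tail2 f k ε X ≤ X := by
  classical
  unfold tail2
  refine (Finset.card_filter_le _ _).trans ?_
  simp

theorem tail2_mono (f : ℤ[X]) (k : ℕ) {ε ε' : ℝ} (h : ε ≤ ε') {X : ℕ} (hX : 1 ≤ X) :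
    tail2 f k ε X ≤ tail2 f k ε' X := by
  classical
  unfold tail2
  apply Finset.card_le_card
  intro n hn
  rw [Finset.mem_filter] at hn ⊢
  obtain ⟨hnI, p, hp, hXp, hd⟩ := hn
  refine ⟨hnI, p, hp, lt_of_le_of_lt ?_ hXp, hd⟩
  exact Real.rpow_le_rpow_of_exponent_le (by exact_mod_cast hX) (by linarith)

/-- only large `X` matter. -/
theorem tailPow_of_large (f : ℤ[X]) (k N0 : ℕ) (ε δ C : ℝ) (hε : 0 < ε) (hε1 : ε < 1)
    (hδ : 0 < δ) (h : ∀ X : ℕ, N0 ≤ X → 1 ≤ X → (tail2 f k ε X : ℝ) ≤ C * (X : ℝ) ^ (1 - δ)) :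
    TailPow f k := by
  refine ⟨ε, min δ 1, max |C| (N0 + 1), hε, hε1, lt_min hδ one_pos,
    le_max_of_le_left (abs_nonneg _), fun X hX => ?_⟩
  have hXr : (1 : ℝ) ≤ X := by exact_mod_cast hX
  have hq : (X : ℝ) ^ (1 - δ) ≤ (X : ℝ) ^ (1 - min δ 1) :=
    Real.rpow_le_rpow_of_exponent_le hXr (by linarith [min_le_left δ 1])
  have hq1 : 1 ≤ (X : ℝ) ^ (1 - min δ 1) :=
    Real.one_le_rpow hXr (by linarith [min_le_right δ 1])
  have hq0 : 0 ≤ (X : ℝ) ^ (1 - δ) := by positivity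
  rcases le_or_gt N0 X with h1 | h1
  · calc (tail2 f k ε X : ℝ) ≤ C * (X : ℝ) ^ (1 - δ) := h X h1 hX
      _ ≤ |C| * (X : ℝ) ^ (1 - δ) := mul_le_mul_of_nonneg_right (le_abs_self C) hq0
      _ ≤ max |C| (N0 + 1) * (X : ℝ) ^ (1 - min δ 1) :=
        mul_le_mul (le_max_left _ _) hq hq0 (le_max_of_le_left (abs_nonneg _))
  · have h3 : (tail2 f k ε X : ℝ) ≤ X := by exact_mod_cast tail2_triv f k ε X
    have h4 : (X : ℝ) ≤ N0 + 1 := by
      have : (X : ℝ) ≤ N0 := by exact_mod_cast h1.le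
      linarith
    calc (tail2 f k ε X : ℝ) ≤ (N0 + 1) * 1 := by linarith
      _ ≤ max |C| (N0 + 1) * (X : ℝ) ^ (1 - min δ 1) :=
        mul_le_mul (le_max_right _ _) hq1 zero_le_one (le_max_of_le_left (abs_nonneg _))

/-- the local bound at the exponent `1`. -/
def NearOne (f : ℤ[X]) (k : ℕ) : Prop :=
  ∃ ε η K : ℝ, 0 < ε ∧ 0 < η ∧ 0 < K ∧ ∃ X0 : ℕ, ∀ X P : ℕ, X0 ≤ X →
    (X : ℝ) ^ (1 - ε) ≤ P → (P : ℝ) ≤ (X : ℝ) ^ (1 + ε) →
    ((pairs f k X P).card : ℝ) ≤ K * (X : ℝ) ^ (1 - η)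

/-- the bound for all `P ≥ X ^ (1 - ε)`. -/
def HPP (f : ℤ[X]) (k : ℕ) : Prop :=
  ∃ ε : ℝ, 0 < ε ∧ ε < 1 ∧ ∀ A : ℝ, 0 < A → ∃ η K : ℝ, 0 < η ∧ 0 < K ∧ ∃ X0 : ℕ, ∀ X P : ℕ,
    X0 ≤ X → (X : ℝ) ^ (1 - ε) ≤ P → (P : ℝ) ^ k ≤ A * (X : ℝ) ^ f.natDegree →
    ((pairs f k X P).card : ℝ) ≤ K * (X : ℝ) ^ (1 - η)

theorem nearOne_of_adm (f : ℤ[X]) (hirr : Irreducible (f.map (Int.castRingHom ℚ))) (k : ℕ)
    (hk : 2 ≤ k) (hd3 : 3 ≤ f.natDegree) (hadm : K2.Adm2 f.natDegree k 1) : NearOne f k := by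
  obtain ⟨ε, η, K, hε, hη, hK, X0, h⟩ := local_bound3 f hirr k hk hd3 1 le_rfl hadm
  refine ⟨min ε (1 / 2), η, K, lt_min hε (by norm_num), hη, hK, max X0 1, ?_⟩
  intro X P hX h1 h2
  have hX0 : X0 ≤ X := le_trans (le_max_left _ _) hX
  have hX1 : 1 ≤ X := le_trans (le_max_right _ _) hX
  have hXr : (1 : ℝ) ≤ X := by exact_mod_cast hX1
  have hXp : (0 : ℝ) < X := by linarith
  refine h X P hX0 ?_ ?_ ?_
  · have h3 : (X : ℝ) ^ (1 / 2 : ℝ) ≤ P :=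
      (Real.rpow_le_rpow_of_exponent_le hXr (by linarith [min_le_right ε (1 / 2)])).trans h1
    have h4 : (X : ℝ) ≤ (P : ℝ) ^ 2 := by
      calc (X : ℝ) = ((X : ℝ) ^ (1 / 2 : ℝ)) ^ 2 := by
            rw [← Real.rpow_natCast, ← Real.rpow_mul hXp.le]
            norm_num
        _ ≤ (P : ℝ) ^ 2 := pow_le_pow_left₀ (by positivity) h3 2
    exact_mod_cast h4
  · exact (Real.rpow_le_rpow_of_exponent_le hXr (by linarith [min_le_left ε (1 / 2)])).trans h1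
  · exact h2.trans (Real.rpow_le_rpow_of_exponent_le hXr (by linarith [min_le_left ε (1 / 2)]))

/-- `k < d`: the existing bound for `P ≥ X` and the bound near the exponent `1`. -/
theorem hpp_of_hp (f : ℤ[X]) (k : ℕ) (h1 : HP f k) (h2 : NearOne f k) : HPP f k := by
  obtain ⟨ε, η2, K2, hε, hη2, hK2, X2, h2⟩ := h2
  refine ⟨min ε (1 / 2), lt_min hε (by norm_num),
    lt_of_le_of_lt (min_le_right _ _) (by norm_num), fun A hA => ?_⟩
  obtain ⟨η1, K1, hη1, hK1, X1, h1⟩ := h1 A hA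
  refine ⟨min η1 η2, max K1 K2, lt_min hη1 hη2, lt_max_of_lt_left hK1, max (max X1 X2) 1, ?_⟩
  intro X P hX hXP hPA
  have hX1 : X1 ≤ X := le_trans (le_trans (le_max_left _ _) (le_max_left _ _)) hX
  have hX2 : X2 ≤ X := le_trans (le_trans (le_max_right _ _) (le_max_left _ _)) hX
  have hXr : (1 : ℝ) ≤ X := by exact_mod_cast le_trans (le_max_right _ _) hX
  rcases le_or_gt X P with h | h
  · refine (h1 X P hX1 h hPA).trans ?_
    exact mul_le_mul (le_max_left _ _)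
      (Real.rpow_le_rpow_of_exponent_le hXr (by linarith [min_le_left η1 η2]))
      (by positivity) (by positivity)
  · have h3 : (P : ℝ) ≤ (X : ℝ) ^ (1 + ε) := by
      calc (P : ℝ) ≤ X := by exact_mod_cast h.le
        _ = (X : ℝ) ^ (1 : ℝ) := (Real.rpow_one _).symm
        _ ≤ (X : ℝ) ^ (1 + ε) := Real.rpow_le_rpow_of_exponent_le hXr (by linarith)
    refine (h2 X P hX2 ((Real.rpow_le_rpow_of_exponent_le hXr
      (by linarith [min_le_left ε (1 / 2)])).trans hXP) h3).trans ?_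
    exact mul_le_mul (le_max_right _ _)
      (Real.rpow_le_rpow_of_exponent_le hXr (by linarith [min_le_right η1 η2]))
      (by positivity) (by positivity)

/-- `k = d`: here the bound near the exponent `1` is enough. -/
theorem hpp_of_near (f : ℤ[X]) (k : ℕ) (hk : 2 ≤ k) (hkd : f.natDegree ≤ k) (h2 : NearOne f k) :
    HPP f k := by
  obtain ⟨ε, η, K, hε, hη, hK, X2, h2⟩ := h2
  refine ⟨min ε (1 / 2), lt_min hε (by norm_num),
    lt_of_le_of_lt (min_le_right _ _) (by norm_num), fun A hA => ?_⟩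
  refine ⟨η, K, hη, hK, max (max X2 1) ⌈A ^ (1 / ε)⌉₊, ?_⟩
  intro X P hX hXP hPA
  have hX2 : X2 ≤ X := le_trans (le_trans (le_max_left _ _) (le_max_left _ _)) hX
  have hX1 : 1 ≤ X := le_trans (le_trans (le_max_right _ _) (le_max_left _ _)) hX
  have hXA : ⌈A ^ (1 / ε)⌉₊ ≤ X := le_trans (le_max_right _ _) hX
  have hXr : (1 : ℝ) ≤ X := by exact_mod_cast hX1
  have hXp : (0 : ℝ) < X := by linarith
  have hA' : A ≤ (X : ℝ) ^ ε := by
    have h3 : A ^ (1 / ε) ≤ X := (Nat.le_ceil _).trans (by exact_mod_cast hXA)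
    calc A = (A ^ (1 / ε)) ^ ε := by
          rw [← Real.rpow_mul hA.le, one_div, inv_mul_cancel₀ hε.ne', Real.rpow_one]
      _ ≤ (X : ℝ) ^ ε := Real.rpow_le_rpow (by positivity) h3 hε.le
  refine h2 X P hX2 ((Real.rpow_le_rpow_of_exponent_le hXr
      (by linarith [min_le_left ε (1 / 2)])).trans hXP) ?_
  by_contra hcon
  push Not at hcon
  have h4 : (X : ℝ) ^ ε * (X : ℝ) ^ k < (P : ℝ) ^ k := by
    calc (X : ℝ) ^ ε * (X : ℝ) ^ k ≤ ((X : ℝ) ^ ε) ^ k * (X : ℝ) ^ k := by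
          apply mul_le_mul_of_nonneg_right _ (by positivity)
          have h5 : 1 ≤ (X : ℝ) ^ ε := Real.one_le_rpow hXr hε.le
          calc (X : ℝ) ^ ε = ((X : ℝ) ^ ε) ^ 1 := (pow_one _).symm
            _ ≤ ((X : ℝ) ^ ε) ^ k := pow_le_pow_right₀ h5 (by omega)
      _ = ((X : ℝ) ^ (1 + ε)) ^ k := by
          rw [← mul_pow, Real.rpow_add hXp, Real.rpow_one, mul_comm]
      _ < (P : ℝ) ^ k := pow_lt_pow_left₀ hcon (by positivity) (by omega)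
  have h6 : (P : ℝ) ^ k ≤ (X : ℝ) ^ ε * (X : ℝ) ^ k := by
    refine hPA.trans (mul_le_mul hA' (pow_le_pow_right₀ hXr hkd) (by positivity) (by positivity))
  linarith

end Vale.Agent.P018.H867P
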