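import Vale.Agent.P018.H867P.TailQ
import Vale.Agent.P018.H867G.Quad
import Vale.Agent.P018.H867Q.Near
import Vale.Agent.P018.H867S.Pow

/-! # P018, H867P: the error term with a power saving, from the abstract sieve. -/

namespace Vale.Agent.P018.H867P

open Polynomial Filter Topology Vale.Agent.P018.H867

/-- irreducible polynomials. -/
theorem tailPow_irr (f : ℤ[X]) (hirr : Irreducible (f.map (Int.castRingHom ℚ))) (k : ℕ)
    (hk : 2 ≤ k) (hr : InRange f.natDegree k) : TailPow f k := by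
  classical
  have hf0 : f ≠ 0 := by
    rintro rfl
    simp at hirr
  rcases lt_or_ge f.natDegree k with h | h
  · exact tailPow_gt f hf0 k h
  rcases lt_or_ge f.natDegree 3 with h3 | h3
  · have hd : f.natDegree = 2 := by omega
    obtain rfl : k = 2 := by omega
    obtain ⟨e, d, C, he, he1, hd0, hC, hq⟩ := H867G.quad_tail f hd hirr
    refine ⟨e, d, C, he, he1, hd0, hC, fun X hX => ?_⟩
    refine le_trans (le_of_eq ?_) (hq X hX)
    unfold tail2
    congr 1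
  by_cases hne : f.natDegree = 4 ∧ k = 2
  · obtain ⟨h4, rfl⟩ := hne
    exact tailPow_mid f hirr 2 hk h3 h hr (Q.N.nearOne_quartic f hirr h4)
  · exact tailPow_mid f hirr k hk h3 h hr
      (nearOne_of_adm f hirr k hk h3 (adm_one f.natDegree k h3 hk h hr hne))

/-- polynomials without multiple factors. -/
theorem tailPow_good (f : ℤ[X]) (k : ℕ) (hk : 2 ≤ k) (hf : Good f k) : TailPow f k :=
  tailPow_sep k (fun d => InRange d k) (fun g hg h => tailPow_irr g hg k hk h) hk f.natDegree f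
    le_rfl hf.1 hf.2

/-- the main theorem for one polynomial. -/
theorem main_pow (f : ℤ[X]) (k : ℕ) (hk : 2 ≤ k) (hf : Good f k)
    (hloc : ∀ p : ℕ, p.Prime → rho f (p ^ k) < p ^ k) :
    ∃ δ C : ℝ, 0 < δ ∧ ∀ X : ℕ, 1 ≤ X →
      |(countPF f k X : ℝ) - density f k * X| ≤ C * (X : ℝ) ^ (1 - δ) := by
  classical
  set B : ℕ → ℕ → Prop := fun p n => (p : ℤ) ^ k ∣ f.eval (n : ℤ) with hB
  have hper : ∀ p : ℕ, p.Prime → ∀ n, B p (n + p ^ k) ↔ B p n := by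
    intro p _ n
    have h1 := per_of_dvd f (p ^ k) (p ^ k) n dvd_rfl
    simp only [hB]
    push_cast at h1 ⊢
    exact h1
  obtain ⟨D, hD⟩ := sep_rho_bound f k (by omega) hf.1
  obtain ⟨ε, δ, C, hε, hε1, hδ, hC, hC'⟩ := tailPow_good f k hk hf
  have hrB : ∀ p : ℕ, rB B k p = rho f (p ^ k) := by
    intro p
    unfold rB rho
    refine card_filter_eq _ _ _ fun n => ?_
    simp only [hB]
    push_cast
    rfl
  have hdB : dB B k = density f k := by
    unfold dB density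
    simp only [hrB]
  have hcB : ∀ X : ℕ, cB B X = countPF f k X := fun X => by
    unfold cB countPF
    exact card_filter_eq _ _ _ fun n => Iff.rfl
  have htB : ∀ X : ℕ, H867S.tB2 B ε X = tail2 f k ε X := fun X => by
    unfold H867S.tB2 tail2
    exact card_filter_eq _ _ _ fun n => Iff.rfl
  obtain ⟨δ', C', hδ', h⟩ := H867S.abs_sieve_pow hk hper (D := D) hC hε hε1 hδ (fun p hp => by
    rw [hrB]; exact hD p hp) (fun p hp => by rw [hrB]; exact hloc p hp)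
    (fun X hX => by rw [htB]; exact hC' X hX)
  refine ⟨δ', C', hδ', fun X hX => ?_⟩
  rw [← hcB, ← hdB]
  exact h X hX

/-- the tail for several polynomials. -/
theorem tail_family {m : ℕ} (hm : 0 < m) (f : Fin m → ℤ[X]) (k : Fin m → ℕ)
    (hk : ∀ i, 2 ≤ k i) (hf : ∀ i, Good (f i) (k i)) :
    ∃ ε δ C : ℝ, 0 < ε ∧ ε < 1 ∧ 0 < δ ∧ 0 ≤ C ∧ ∀ X : ℕ, 1 ≤ X →
      (H867S.tB2 (fun p n => ∃ i, (p : ℤ) ^ k i ∣ (f i).eval (n : ℤ)) ε X : ℝ) ≤
        C * (X : ℝ) ^ (1 - δ) := by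
  classical
  have hne : (Finset.univ : Finset (Fin m)).Nonempty := ⟨⟨0, hm⟩, Finset.mem_univ _⟩
  choose ε δ C hε hε1 hδ hC h using fun i => tailPow_good (f i) (k i) (hk i) (hf i)
  set ε' : ℝ := Finset.univ.inf' hne ε with hε'
  set δ' : ℝ := Finset.univ.inf' hne δ with hδ'
  have h1 : ∀ i, ε' ≤ ε i := fun i => Finset.inf'_le _ (Finset.mem_univ i)
  have h2 : ∀ i, δ' ≤ δ i := fun i => Finset.inf'_le _ (Finset.mem_univ i)
  refine ⟨ε', δ', ∑ i, C i, ?_, (h1 ⟨0, hm⟩).trans_lt (hε1 _), ?_,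
    Finset.sum_nonneg fun i _ => hC i, fun X hX => ?_⟩
  · rw [hε', Finset.lt_inf'_iff]
    exact fun i _ => hε i
  · rw [hδ', Finset.lt_inf'_iff]
    exact fun i _ => hδ i
  have hXr : (1 : ℝ) ≤ X := by exact_mod_cast hX
  have h3 : H867S.tB2 (fun p n => ∃ i, (p : ℤ) ^ k i ∣ (f i).eval (n : ℤ)) ε' X ≤
      ∑ i, tail2 (f i) (k i) ε' X := by
    unfold H867S.tB2 tail2
    exact card_filter_biUnion _ _ (fun (i : Fin m) (n : ℕ) => ∃ p : ℕ, p.Prime ∧
        (X : ℝ) ^ (1 - ε') < p ∧ (p : ℤ) ^ k i ∣ (f i).eval (n : ℤ))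
      fun n ⟨p, hp, hXp, i, hi⟩ => ⟨i, p, hp, hXp, hi⟩
  calc (H867S.tB2 (fun p n => ∃ i, (p : ℤ) ^ k i ∣ (f i).eval (n : ℤ)) ε' X : ℝ)
      ≤ ((∑ i, tail2 (f i) (k i) ε' X : ℕ) : ℝ) := by exact_mod_cast h3
    _ = ∑ i, (tail2 (f i) (k i) ε' X : ℝ) := by push_cast; rfl
    _ ≤ ∑ i, C i * (X : ℝ) ^ (1 - δ') := by
        refine Finset.sum_le_sum fun i _ => ?_
        calc (tail2 (f i) (k i) ε' X : ℝ) ≤ (tail2 (f i) (k i) (ε i) X : ℝ) := by
              exact_mod_cast tail2_mono (f i) (k i) (h1 i) hX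
          _ ≤ C i * (X : ℝ) ^ (1 - δ i) := h i X hX
          _ ≤ C i * (X : ℝ) ^ (1 - δ') := mul_le_mul_of_nonneg_left
              (Real.rpow_le_rpow_of_exponent_le hXr (by linarith [h2 i])) (hC i)
    _ = _ := by rw [Finset.sum_mul]

/-- the statement of the abstract sieve for unions of residue classes. -/
def SieveBalls : Prop :=
  ∀ (B : ℕ → ℕ → Prop) (K : ℕ), 2 ≤ K → ∀ (D : ℕ) (C e d : ℝ), 0 ≤ C → 0 < e → e < 1 → 0 < d →
    (∀ p : ℕ, p.Prime → ∃ M : Finset (ℕ × ℕ), M.card ≤ D ∧ (∀ z ∈ M, 2 ≤ z.1 ∧ z.1 ≤ K) ∧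
      ∀ n, B p n ↔ ∃ z ∈ M, n ≡ z.2 [MOD p ^ z.1]) →
    (∀ p : ℕ, p.Prime → rB B K p < p ^ K) →
    (∀ X : ℕ, 1 ≤ X → (H867S.tB2 B e X : ℝ) ≤ C * (X : ℝ) ^ (1 - d)) →
    ∃ d1 C1 : ℝ, 0 < d1 ∧ ∀ X : ℕ, 1 ≤ X →
      |(cB B X : ℝ) - dB B K * X| ≤ C1 * (X : ℝ) ^ (1 - d1)

/-- the condition at a prime number is a union of a bounded number of residue classes. -/
theorem balls_family {m : ℕ} (f : Fin m → ℤ[X]) (k : Fin m → ℕ)
    (hk : ∀ i, 2 ≤ k i) (hf : ∀ i, Good (f i) (k i)) :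
    ∃ D : ℕ, ∀ p : ℕ, p.Prime → ∃ M : Finset (ℕ × ℕ), M.card ≤ D ∧
      (∀ z ∈ M, 2 ≤ z.1 ∧ z.1 ≤ topExp k) ∧
      ∀ n : ℕ, (∃ i, (p : ℤ) ^ k i ∣ (f i).eval (n : ℤ)) ↔ ∃ z ∈ M, n ≡ z.2 [MOD p ^ z.1] := by
  classical
  choose D hD using fun i => sep_rho_bound (f i) (k i) (by have := hk i; omega) (hf i).1
  refine ⟨∑ i, D i, fun p hp => ?_⟩
  refine ⟨Finset.univ.biUnion fun i => ((Finset.range (p ^ k i)).filter
    (fun a : ℕ => ((p ^ k i : ℕ) : ℤ) ∣ (f i).eval (a : ℤ))).image (fun a => (k i, a)), ?_, ?_, ?_⟩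
  · refine Finset.card_biUnion_le.trans (Finset.sum_le_sum fun i _ => ?_)
    refine Finset.card_image_le.trans (le_trans (le_of_eq ?_) (hD i p hp))
    unfold rho
    exact card_filter_eq _ _ _ fun n => Iff.rfl
  · intro z hz
    obtain ⟨i, -, hz⟩ := Finset.mem_biUnion.1 hz
    obtain ⟨a, -, rfl⟩ := Finset.mem_image.1 hz
    exact ⟨hk i, Finset.le_sup (f := k) (Finset.mem_univ i)⟩
  · intro n
    constructor
    · rintro ⟨i, hi⟩
      refine ⟨(k i, n % p ^ k i), ?_, (Nat.mod_modEq n (p ^ k i)).symm⟩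
      rw [Finset.mem_biUnion]
      refine ⟨i, Finset.mem_univ i, Finset.mem_image.2 ⟨n % p ^ k i, ?_, rfl⟩⟩
      rw [Finset.mem_filter, Finset.mem_range]
      refine ⟨Nat.mod_lt _ (pow_pos hp.pos _), ?_⟩
      rw [sv_dvd_mod]
      push_cast
      exact hi
    · rintro ⟨z, hz, hn⟩
      obtain ⟨i, -, hz⟩ := Finset.mem_biUnion.1 hz
      obtain ⟨a, ha, rfl⟩ := Finset.mem_image.1 hz
      obtain ⟨ha1, ha2⟩ := Finset.mem_filter.1 ha
      refine ⟨i, ?_⟩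
      have h1 : ((p ^ k i : ℕ) : ℤ) ∣ (f i).eval (n : ℤ) := by
        rw [← sv_dvd_mod (f i) (p ^ k i) n]
        have h2 : n % p ^ k i = a % p ^ k i := hn
        rw [h2, sv_dvd_mod]
        exact ha2
      push_cast at h1
      exact h1

/-- several polynomials. -/
theorem main_family_pow (hS : SieveBalls) {m : ℕ} (hm : 0 < m) (f : Fin m → ℤ[X])
    (k : Fin m → ℕ) (hk : ∀ i, 2 ≤ k i) (hf : ∀ i, Good (f i) (k i))
    (hloc : ∀ p : ℕ, p.Prime → rhoS f k p < p ^ topExp k) :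
    ∃ δ C : ℝ, 0 < δ ∧ ∀ X : ℕ, 1 ≤ X →
      |(countS f k X : ℝ) - densityS f k * X| ≤ C * (X : ℝ) ^ (1 - δ) := by
  classical
  set B : ℕ → ℕ → Prop := fun p n => ∃ i, (p : ℤ) ^ k i ∣ (f i).eval (n : ℤ) with hB
  have hle : ∀ i, k i ≤ topExp k := fun i => Finset.le_sup (f := k) (Finset.mem_univ i)
  have hK : 2 ≤ topExp k := (hk ⟨0, hm⟩).trans (hle _)
  obtain ⟨ε, δ, C, hε, hε1, hδ, hC, htail⟩ := tail_family hm f k hk hf
  obtain ⟨D, hD⟩ := balls_family f k hk hf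
  have hrB : ∀ p : ℕ, rB B (topExp k) p = rhoS f k p := fun p => by
    unfold rB rhoS
    exact card_filter_eq _ _ _ fun n => Iff.rfl
  have hdB : dB B (topExp k) = densityS f k := by
    unfold dB densityS
    simp only [hrB]
  have hcB : ∀ X : ℕ, cB B X = countS f k X := by
    intro X
    unfold cB countS
    refine card_filter_eq _ _ _ fun n => ?_
    simp only [hB, PowerFree, not_exists]
    exact ⟨fun h i p hp => h p hp i, fun h p hp i => h i p hp⟩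
  obtain ⟨δ', C', hδ', h⟩ := hS B (topExp k) hK D C ε δ hC hε hε1 hδ hD
    (fun p hp => by rw [hrB]; exact hloc p hp) htail
  refine ⟨δ', C', hδ', fun X hX => ?_⟩
  rw [← hcB, ← hdB]
  exact h X hX

end Vale.Agent.P018.H867P
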