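import Vale.Agent.P018.H867P.TailP

/-! # P018, H867P: from the bounds for the pairs to the tail, and to separable polynomials. -/

namespace Vale.Agent.P018.H867P

open Polynomial Filter Topology Vale.Agent.P018.H867

theorem log_pow_bound2 {η : ℝ} (hη : 0 < η) {x : ℝ} (hx : 1 ≤ x) :
    Real.log x * x ^ (1 - η) ≤ (2 / η) * x ^ (1 - η / 2) := by
  have hx0 : 0 < x := by linarith
  have h1 : Real.log x ≤ x ^ (η / 2) / (η / 2) := Real.log_le_rpow_div hx0.le (by positivity)
  calc Real.log x * x ^ (1 - η) ≤ x ^ (η / 2) / (η / 2) * x ^ (1 - η) :=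
        mul_le_mul_of_nonneg_right h1 (by positivity)
    _ = (2 / η) * (x ^ (η / 2) * x ^ (1 - η)) := by
        field_simp
    _ = (2 / η) * x ^ (1 - η / 2) := by
        rw [← Real.rpow_add hx0]
        congr 2
        ring

theorem tailPow_of_hpp (f : ℤ[X]) (hirr : Irreducible (f.map (Int.castRingHom ℚ))) (k : ℕ)
    (hk : 2 ≤ k) (hd2 : 2 ≤ f.natDegree) (hpairs : HPP f k) : TailPow f k := by
  classical
  obtain ⟨ε, hε, hε1, hpairs⟩ := hpairs
  set d := f.natDegree with hd
  set A : ℕ := cSum f + 1 with hA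
  obtain ⟨η, K, hη, hK, X0, hX0⟩ := hpairs (A : ℝ) (by rw [hA]; push_cast; positivity)
  -- size of the primes
  have hsize : ∀ X : ℕ, 1 ≤ X → ∀ n p : ℕ, n ≤ X → (p : ℤ) ^ k ∣ f.eval (n : ℤ) →
      p ^ k ≤ A * X ^ d := by
    intro X hX n p hn hdvd
    have hne := eval_ne_zero_of_irreducible f hirr (by omega) (n : ℤ)
    have h1 : p ^ k ≤ (f.eval (n : ℤ)).natAbs := by
      have h2 := Int.natAbs_dvd_natAbs.2 hdvd
      rw [Int.natAbs_pow, Int.natAbs_natCast] at h2
      exact Nat.le_of_dvd (Int.natAbs_pos.2 hne) h2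
    refine h1.trans ((abs_eval_le f hX hn).trans ?_)
    exact Nat.mul_le_mul_right _ (by omega)
  set P0 : ℕ → ℕ := fun X => ⌊(X : ℝ) ^ (1 - ε / 2)⌋₊ with hP0
  set N1 : ℕ := max (max X0 2) ⌈(2 : ℝ) ^ (2 / ε)⌉₊ with hN1
  have hP0a : ∀ X : ℕ, N1 ≤ X → (X : ℝ) ^ (1 - ε) ≤ P0 X ∧ 1 ≤ P0 X := by
    intro X hX
    have hX2 : 2 ≤ X := le_trans (le_trans (le_max_right _ _) (le_max_left _ _)) hX
    have hXr : (1 : ℝ) ≤ X := by exact_mod_cast (show 1 ≤ X by omega)
    have hXp : (0 : ℝ) < X := by linarith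
    have h1 : (2 : ℝ) ^ (2 / ε) ≤ X :=
      (Nat.le_ceil _).trans (by exact_mod_cast le_trans (le_max_right _ _) hX)
    have h2 : (2 : ℝ) ≤ (X : ℝ) ^ (ε / 2) := by
      calc (2 : ℝ) = ((2 : ℝ) ^ (2 / ε)) ^ (ε / 2) := by
            rw [← Real.rpow_mul (by norm_num)]
            rw [show 2 / ε * (ε / 2) = 1 by field_simp, Real.rpow_one]
        _ ≤ (X : ℝ) ^ (ε / 2) := Real.rpow_le_rpow (by positivity) h1 (by positivity)
    have h3 : 1 ≤ (X : ℝ) ^ (1 - ε) := Real.one_le_rpow hXr (by linarith)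
    have h4 : (X : ℝ) ^ (1 - ε / 2) = (X : ℝ) ^ (1 - ε) * (X : ℝ) ^ (ε / 2) := by
      rw [← Real.rpow_add hXp]
      congr 1
      ring
    have h5 : (X : ℝ) ^ (1 - ε) + 1 ≤ (X : ℝ) ^ (1 - ε / 2) := by
      rw [h4]
      nlinarith
    have h6 := Nat.lt_floor_add_one ((X : ℝ) ^ (1 - ε / 2))
    have h7 : (X : ℝ) ^ (1 - ε) ≤ P0 X := by
      simp only [hP0]
      linarith
    refine ⟨h7, ?_⟩
    have h8 : (1 : ℝ) ≤ P0 X := h3.trans h7
    exact_mod_cast h8
  -- every block is small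
  have hblock : ∀ X : ℕ, N1 ≤ X → ∀ j : ℕ,
      ((pairs f k X (2 ^ j * P0 X)).card : ℝ) ≤ K * (X : ℝ) ^ (1 - η) := by
    intro X hX j
    have hXX0 : X0 ≤ X := le_trans (le_trans (le_max_left _ _) (le_max_left _ _)) hX
    have hX2 : 2 ≤ X := le_trans (le_trans (le_max_right _ _) (le_max_left _ _)) hX
    rcases (pairs f k X (2 ^ j * P0 X)).eq_empty_or_nonempty with h | ⟨z, hz⟩
    · rw [h]
      simp only [Finset.card_empty, Nat.cast_zero]
      positivity
    · apply hX0 X _ hXX0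
      · refine (hP0a X hX).1.trans ?_
        exact_mod_cast Nat.le_mul_of_pos_left (P0 X) (by positivity)
      · unfold pairs at hz
        rw [Finset.mem_filter, Finset.mem_product, Finset.mem_Icc, Finset.mem_Ioc] at hz
        have h1 := hsize X (by omega) z.1 z.2 hz.1.1.2 hz.2.2
        have h2 : (2 ^ j * P0 X) ^ k ≤ A * X ^ d :=
          (Nat.pow_le_pow_left hz.1.2.1.le k).trans h1
        exact_mod_cast h2
  -- the number of blocks
  have htail : ∀ X : ℕ, N1 ≤ X →
      (tail2 f k (ε / 2) X : ℝ) ≤ ((Nat.log 2 (A * X ^ d) : ℝ) + 1) * (K * (X : ℝ) ^ (1 - η)) := by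
    intro X hX
    have hX2 : 2 ≤ X := le_trans (le_trans (le_max_right _ _) (le_max_left _ _)) hX
    have hX1 : 1 ≤ X := by omega
    have hP01 := (hP0a X hX).2
    set J := Nat.log 2 (A * X ^ d) with hJ
    have hsub : ((Finset.Icc 1 X).filter (fun n : ℕ => ∃ p : ℕ, p.Prime ∧
        (X : ℝ) ^ (1 - ε / 2) < p ∧ (p : ℤ) ^ k ∣ f.eval (n : ℤ))) ⊆
        (Finset.range (J + 1)).biUnion
          (fun j => (pairs f k X (2 ^ j * P0 X)).image Prod.fst) := by
      intro n hn
      rw [Finset.mem_filter, Finset.mem_Icc] at hn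
      obtain ⟨⟨hn1, hnX⟩, p, hp, hXp, hdvd⟩ := hn
      have hpk := hsize X hX1 n p hnX hdvd
      have hpA : p ≤ A * X ^ d := (Nat.le_self_pow (by omega) p).trans hpk
      have hPp : P0 X < p := by
        have h1 : ((P0 X : ℕ) : ℝ) ≤ (X : ℝ) ^ (1 - ε / 2) := Nat.floor_le (by positivity)
        exact_mod_cast lt_of_le_of_lt h1 hXp
      -- choose the block
      have hex : ∃ j, p ≤ 2 ^ (j + 1) * P0 X := by
        refine ⟨p, ?_⟩
        have : p ≤ 2 ^ (p + 1) := (Nat.lt_two_pow_self (n := p)).le.trans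
          (Nat.pow_le_pow_right (by norm_num) (by omega))
        exact this.trans (Nat.le_mul_of_pos_right _ (by omega))
      set j := Nat.find hex with hj
      have hj1 : p ≤ 2 ^ (j + 1) * P0 X := Nat.find_spec hex
      have hj2 : 2 ^ j * P0 X < p := by
        rcases Nat.eq_zero_or_pos j with h0 | h0
        · rw [h0]
          simpa using hPp
        · have := Nat.find_min hex (m := j - 1) (by omega)
          push Not at this
          rwa [Nat.sub_add_cancel h0] at this
      have hjJ : j < J + 1 := by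
        rw [Nat.lt_succ_iff, hJ]
        apply Nat.le_log_of_pow_le (by norm_num)
        calc 2 ^ j ≤ 2 ^ j * P0 X := Nat.le_mul_of_pos_right _ (by omega)
          _ ≤ p := hj2.le
          _ ≤ A * X ^ d := hpA
      rw [Finset.mem_biUnion]
      refine ⟨j, Finset.mem_range.2 hjJ, ?_⟩
      rw [Finset.mem_image]
      refine ⟨(n, p), ?_, rfl⟩
      unfold pairs
      rw [Finset.mem_filter, Finset.mem_product, Finset.mem_Icc, Finset.mem_Ioc]
      refine ⟨⟨⟨hn1, hnX⟩, hj2, ?_⟩, hp, hdvd⟩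
      calc p ≤ 2 ^ (j + 1) * P0 X := hj1
        _ = 2 * (2 ^ j * P0 X) := by ring
    have hcard : tail2 f k (ε / 2) X ≤
        ∑ j ∈ Finset.range (J + 1), (pairs f k X (2 ^ j * P0 X)).card := by
      unfold tail2
      calc _ ≤ ((Finset.range (J + 1)).biUnion
            (fun j => (pairs f k X (2 ^ j * P0 X)).image Prod.fst)).card := by
              convert Finset.card_le_card hsub
        _ ≤ ∑ j ∈ Finset.range (J + 1), ((pairs f k X (2 ^ j * P0 X)).image Prod.fst).card :=
              Finset.card_biUnion_le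
        _ ≤ _ := Finset.sum_le_sum fun j _ => Finset.card_image_le
    calc (tail2 f k (ε / 2) X : ℝ)
        ≤ ((∑ j ∈ Finset.range (J + 1), (pairs f k X (2 ^ j * P0 X)).card : ℕ) : ℝ) := by
          exact_mod_cast hcard
      _ = ∑ j ∈ Finset.range (J + 1), ((pairs f k X (2 ^ j * P0 X)).card : ℝ) := by
          push_cast; rfl
      _ ≤ ∑ j ∈ Finset.range (J + 1), (K * (X : ℝ) ^ (1 - η)) :=
          Finset.sum_le_sum fun j _ => hblock X hX j
      _ = ((J : ℝ) + 1) * (K * (X : ℝ) ^ (1 - η)) := by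
          rw [Finset.sum_const, Finset.card_range, nsmul_eq_mul]
          push_cast
          ring
  -- the number of blocks is `O(log X)`
  have hl2 : 0 < Real.log 2 := Real.log_pos (by norm_num)
  have hA1 : (1 : ℝ) ≤ A := by
    rw [hA]
    push_cast
    have : (0 : ℝ) ≤ (cSum f : ℝ) := by positivity
    linarith
  have hlA : 0 ≤ Real.log A := Real.log_nonneg hA1
  set c : ℝ := (Real.log A / Real.log 2 + 1) / Real.log 2 + d / Real.log 2 with hc
  have hc0 : 0 ≤ c := by positivity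
  refine tailPow_of_large f k N1 (ε / 2) (η / 2) (c * K * (2 / η)) (by positivity) (by linarith)
    (by positivity) ?_
  intro X hX _
  have hX2 : 2 ≤ X := le_trans (le_trans (le_max_right _ _) (le_max_left _ _)) hX
  have hXr : (2 : ℝ) ≤ X := by exact_mod_cast hX2
  have hX0' : (0 : ℝ) < X := by linarith
  have hlX : Real.log 2 ≤ Real.log X := Real.log_le_log (by norm_num) hXr
  have hl0 : 0 < Real.log X := lt_of_lt_of_le hl2 hlX
  have hJ : (Nat.log 2 (A * X ^ d) : ℝ) + 1 ≤ c * Real.log X := by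
    have h1 : (Nat.log 2 (A * X ^ d) : ℝ) ≤ (Real.log A + d * Real.log X) / Real.log 2 := by
      rw [le_div_iff₀ hl2]
      have h2 : 2 ^ Nat.log 2 (A * X ^ d) ≤ A * X ^ d :=
        Nat.pow_log_le_self 2 (by
          have : 0 < A * X ^ d := Nat.mul_pos (by omega) (pow_pos (by omega) _)
          omega)
      have h3 : ((2 : ℝ)) ^ Nat.log 2 (A * X ^ d) ≤ A * (X : ℝ) ^ d := by exact_mod_cast h2
      have h4 := Real.log_le_log (by positivity) h3
      rwa [Real.log_pow, Real.log_mul (by positivity) (by positivity), Real.log_pow] at h4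
    have h5 : Real.log A / Real.log 2 + 1 ≤
        (Real.log A / Real.log 2 + 1) / Real.log 2 * Real.log X := by
      rw [div_mul_eq_mul_div, le_div_iff₀ hl2]
      exact mul_le_mul_of_nonneg_left hlX (by positivity)
    calc (Nat.log 2 (A * X ^ d) : ℝ) + 1 ≤ (Real.log A + d * Real.log X) / Real.log 2 + 1 := by
          linarith
      _ = (Real.log A / Real.log 2 + 1) + d / Real.log 2 * Real.log X := by
          field_simp
          ring
      _ ≤ (Real.log A / Real.log 2 + 1) / Real.log 2 * Real.log X +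
          d / Real.log 2 * Real.log X := by linarith
      _ = c * Real.log X := by rw [hc]; ring
  calc (tail2 f k (ε / 2) X : ℝ)
      ≤ ((Nat.log 2 (A * X ^ d) : ℝ) + 1) * (K * (X : ℝ) ^ (1 - η)) := htail X hX
    _ ≤ (c * Real.log X) * (K * (X : ℝ) ^ (1 - η)) :=
        mul_le_mul_of_nonneg_right hJ (by positivity)
    _ = c * K * (Real.log X * (X : ℝ) ^ (1 - η)) := by ring
    _ ≤ c * K * ((2 / η) * (X : ℝ) ^ (1 - η / 2)) :=
        mul_le_mul_of_nonneg_left (log_pow_bound2 hη (by linarith)) (by positivity)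
    _ = c * K * (2 / η) * (X : ℝ) ^ (1 - η / 2) := by ring

/-- `k > d`: only the zeros of `f` matter. -/
theorem tailPow_gt (f : ℤ[X]) (hf0 : f ≠ 0) (k : ℕ) (hkd : f.natDegree < k) : TailPow f k := by
  classical
  obtain ⟨H, hH⟩ : ∃ H : ℕ, H = ∑ i ∈ Finset.range (f.natDegree + 1), (f.coeff i).natAbs :=
    ⟨_, rfl⟩
  have hk0 : (0 : ℝ) < k := by exact_mod_cast (show 0 < k by omega)
  have hk1 : (1 : ℝ) ≤ k := by exact_mod_cast (show 1 ≤ k by omega)
  refine tailPow_of_large f k (H ^ 2 + 1) (1 / (2 * k)) (1 / 2) f.natDegree (by positivity)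
    ?_ (by norm_num) ?_
  · rw [div_lt_one (by positivity)]
    linarith
  intro X hX hX1
  have hXr : (1 : ℝ) ≤ X := by exact_mod_cast hX1
  have hXp : (0 : ℝ) < X := by linarith
  have hsub : (Finset.Icc 1 X).filter (fun n : ℕ => ∃ p : ℕ, p.Prime ∧
      (X : ℝ) ^ (1 - 1 / (2 * (k : ℝ))) < p ∧ (p : ℤ) ^ k ∣ f.eval (n : ℤ)) ⊆
      (Finset.Icc 1 X).filter (fun n : ℕ => f.eval (n : ℤ) = 0) := by
    intro n hn
    rw [Finset.mem_filter, Finset.mem_Icc] at hn
    obtain ⟨⟨hn1, hnX⟩, p, hp, hXlt, hdvd⟩ := hn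
    rw [Finset.mem_filter, Finset.mem_Icc]
    refine ⟨⟨hn1, hnX⟩, ?_⟩
    by_contra h0
    have h1 : p ^ k ∣ (f.eval (n : ℤ)).natAbs := by
      have := Int.natAbs_dvd_natAbs.2 hdvd
      rwa [Int.natAbs_pow, Int.natAbs_natCast] at this
    have h2 := Nat.le_of_dvd (Int.natAbs_pos.2 h0) h1
    have h3 := eval_natAbs_le f hn1 hnX
    rw [← hH] at h3
    have h4 : (p : ℝ) ^ k ≤ H * (X : ℝ) ^ f.natDegree := by exact_mod_cast h2.trans h3
    have h5 : (X : ℝ) ^ (k - 1 / 2 : ℝ) ≤ (p : ℝ) ^ k := by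
      calc (X : ℝ) ^ (k - 1 / 2 : ℝ) = ((X : ℝ) ^ (1 - 1 / (2 * (k : ℝ)))) ^ k := by
            rw [← Real.rpow_natCast, ← Real.rpow_mul hXp.le]
            congr 1
            field_simp
        _ ≤ (p : ℝ) ^ k := pow_le_pow_left₀ (by positivity) hXlt.le k
    have h6 : (X : ℝ) ^ (f.natDegree + 1 / 2 : ℝ) ≤ (X : ℝ) ^ (k - 1 / 2 : ℝ) := by
      apply Real.rpow_le_rpow_of_exponent_le hXr
      have : (f.natDegree : ℝ) + 1 ≤ k := by exact_mod_cast hkd
      linarith
    have h7 : (X : ℝ) ^ (f.natDegree + 1 / 2 : ℝ) =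
        (X : ℝ) ^ (1 / 2 : ℝ) * (X : ℝ) ^ f.natDegree := by
      rw [Real.rpow_add hXp, Real.rpow_natCast, mul_comm]
    have h8 : (X : ℝ) ^ (1 / 2 : ℝ) * (X : ℝ) ^ f.natDegree ≤ H * (X : ℝ) ^ f.natDegree := by
      rw [← h7]
      exact (h6.trans h5).trans h4
    have h9 : (X : ℝ) ^ (1 / 2 : ℝ) ≤ H := le_of_mul_le_mul_right h8 (by positivity)
    have h10 : (X : ℝ) ≤ (H : ℝ) ^ 2 := by
      calc (X : ℝ) = ((X : ℝ) ^ (1 / 2 : ℝ)) ^ 2 := by
            rw [← Real.rpow_natCast, ← Real.rpow_mul hXp.le]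
            norm_num
        _ ≤ (H : ℝ) ^ 2 := pow_le_pow_left₀ (by positivity) h9 2
    have h11 : X ≤ H ^ 2 := by exact_mod_cast h10
    omega
  have hz : ((Finset.Icc 1 X).filter (fun n : ℕ => f.eval (n : ℤ) = 0)).card ≤ f.natDegree := by
    calc ((Finset.Icc 1 X).filter (fun n : ℕ => f.eval (n : ℤ) = 0)).card
        ≤ f.roots.toFinset.card := by
          refine Finset.card_le_card_of_injOn (fun n : ℕ => (n : ℤ)) ?_ ?_
          · intro n hn
            rw [Finset.mem_coe, Finset.mem_filter] at hn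
            rw [Finset.mem_coe, Multiset.mem_toFinset, mem_roots hf0]
            exact hn.2
          · intro a _ b _ hab
            exact Int.natCast_inj.1 hab
      _ ≤ Multiset.card f.roots := f.roots.toFinset_card_le
      _ ≤ f.natDegree := card_roots' f
  have h1 : tail2 f k (1 / (2 * (k : ℝ))) X ≤ f.natDegree := by
    refine le_trans ?_ hz
    unfold tail2
    convert Finset.card_le_card hsub
  calc (tail2 f k (1 / (2 * (k : ℝ))) X : ℝ) ≤ f.natDegree := by exact_mod_cast h1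
    _ = f.natDegree * 1 := (mul_one _).symm
    _ ≤ f.natDegree * (X : ℝ) ^ (1 - 1 / 2 : ℝ) :=
      mul_le_mul_of_nonneg_left (Real.one_le_rpow hXr (by norm_num)) (by positivity)

/-! ### separable polynomials -/

theorem tail2_split (f A B u v : ℤ[X]) (R c : ℤ) (hR : R ≠ 0) (hAB : A * B = C c * f)
    (hbez : u * A + v * B = C R) (k X : ℕ) (ε : ℝ) (hX : (R.natAbs : ℝ) ≤ (X : ℝ) ^ (1 - ε)) :
    tail2 f k ε X ≤ tail2 A k ε X + tail2 B k ε X := by
  classical
  unfold tail2
  refine (Finset.card_le_card (t := _ ∪ _) ?_).trans (Finset.card_union_le _ _)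
  intro n hn
  rw [Finset.mem_filter] at hn
  obtain ⟨hnI, p, hp, hXp, hdvd⟩ := hn
  rw [Finset.mem_union, Finset.mem_filter, Finset.mem_filter]
  have hpp : Prime (p : ℤ) := Nat.prime_iff_prime_int.mp hp
  have h1 : (p : ℤ) ^ k ∣ A.eval (n : ℤ) * B.eval (n : ℤ) := by
    have h2 : A.eval (n : ℤ) * B.eval (n : ℤ) = c * f.eval (n : ℤ) := by
      have h3 := congrArg (Polynomial.eval (n : ℤ)) hAB
      simpa using h3
    rw [h2]
    exact Dvd.dvd.mul_left hdvd c
  by_cases hA : (p : ℤ) ∣ A.eval (n : ℤ)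
  · by_cases hB : (p : ℤ) ∣ B.eval (n : ℤ)
    · exfalso
      have h4 : (u * A + v * B).eval (n : ℤ) = R := by rw [hbez]; simp
      rw [eval_add, eval_mul, eval_mul] at h4
      have h5 : (p : ℤ) ∣ R := by
        rw [← h4]
        exact dvd_add (Dvd.dvd.mul_left hA _) (Dvd.dvd.mul_left hB _)
      have h6 : p ∣ R.natAbs := Int.natCast_dvd.mp h5
      have h7 := Nat.le_of_dvd (Int.natAbs_pos.mpr hR) h6
      have h8 : (p : ℝ) ≤ R.natAbs := by exact_mod_cast h7
      linarith
    · left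
      refine ⟨hnI, p, hp, hXp, ?_⟩
      exact (IsCoprime.pow_left ((Prime.coprime_iff_not_dvd hpp).mpr hB)).dvd_of_dvd_mul_right h1
  · right
    refine ⟨hnI, p, hp, hXp, ?_⟩
    exact (IsCoprime.pow_left ((Prime.coprime_iff_not_dvd hpp).mpr hA)).dvd_of_dvd_mul_left h1

theorem tailPow_split (f A B u v : ℤ[X]) (R c : ℤ) (hR : R ≠ 0) (hAB : A * B = C c * f)
    (hbez : u * A + v * B = C R) (k : ℕ) (hA : TailPow A k) (hB : TailPow B k) :
    TailPow f k := by
  obtain ⟨ε1, δ1, C1, hε1, hε1', hδ1, hC1, h1⟩ := hA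
  obtain ⟨ε2, δ2, C2, hε2, hε2', hδ2, hC2, h2⟩ := hB
  set ε := min ε1 ε2 with hε
  have hε0 : 0 < ε := lt_min hε1 hε2
  have hε1'' : ε < 1 := lt_of_le_of_lt (min_le_left _ _) hε1'
  refine tailPow_of_large f k ⌈(R.natAbs : ℝ) ^ (1 / (1 - ε))⌉₊ ε (min δ1 δ2) (C1 + C2) hε0
    hε1'' (lt_min hδ1 hδ2) ?_
  intro X hX hX1
  have hXr : (1 : ℝ) ≤ X := by exact_mod_cast hX1
  have hRX : (R.natAbs : ℝ) ≤ (X : ℝ) ^ (1 - ε) := by
    have h3 : (R.natAbs : ℝ) ^ (1 / (1 - ε)) ≤ X := (Nat.le_ceil _).trans (by exact_mod_cast hX)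
    calc (R.natAbs : ℝ) = ((R.natAbs : ℝ) ^ (1 / (1 - ε))) ^ (1 - ε) := by
          rw [← Real.rpow_mul (by positivity), one_div, inv_mul_cancel₀ (by linarith),
            Real.rpow_one]
      _ ≤ (X : ℝ) ^ (1 - ε) := Real.rpow_le_rpow (by positivity) h3 (by linarith)
  have h3 := tail2_split f A B u v R c hR hAB hbez k X ε hRX
  have h4 : (tail2 f k ε X : ℝ) ≤ tail2 A k ε X + tail2 B k ε X := by exact_mod_cast h3
  have h5 : (tail2 A k ε X : ℝ) ≤ C1 * (X : ℝ) ^ (1 - min δ1 δ2) := by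
    refine le_trans (by exact_mod_cast tail2_mono A k (min_le_left _ _) hX1) ((h1 X hX1).trans ?_)
    exact mul_le_mul_of_nonneg_left
      (Real.rpow_le_rpow_of_exponent_le hXr (by linarith [min_le_left δ1 δ2])) hC1
  have h6 : (tail2 B k ε X : ℝ) ≤ C2 * (X : ℝ) ^ (1 - min δ1 δ2) := by
    refine le_trans (by exact_mod_cast tail2_mono B k (min_le_right _ _) hX1) ((h2 X hX1).trans ?_)
    exact mul_le_mul_of_nonneg_left
      (Real.rpow_le_rpow_of_exponent_le hXr (by linarith [min_le_right δ1 δ2])) hC2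
  rw [add_mul]
  linarith

/-- induction on the degree, for any class `Q` of irreducible polynomials closed under multiples. -/
theorem tailPow_sep (k : ℕ) (Q : ℕ → Prop)
    (hQ : ∀ f : ℤ[X], Irreducible (f.map (Int.castRingHom ℚ)) → Q f.natDegree → TailPow f k)
    (hk : 2 ≤ k) : ∀ (N : ℕ) (f : ℤ[X]), f.natDegree ≤ N → Squarefree (f.map (Int.castRingHom ℚ)) →
    (∀ g : ℚ[X], Irreducible g → g ∣ f.map (Int.castRingHom ℚ) → Q g.natDegree) →
    TailPow f k := by
  intro N
  induction N with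
  | zero =>
    intro f hN hsq _
    have hf0 : f ≠ 0 := by
      rintro rfl
      simp at hsq
    exact tailPow_gt f hf0 k (by omega)
  | succ N ih =>
    intro f hN hsq hfac
    have hf0 : f ≠ 0 := by
      rintro rfl
      simp at hsq
    have hinj : Function.Injective (Polynomial.map (Int.castRingHom ℚ)) :=
      Polynomial.map_injective _ (Int.cast_injective)
    have hdegmap : ∀ g : ℤ[X], (g.map (Int.castRingHom ℚ)).natDegree = g.natDegree := fun g =>
      natDegree_map_eq_of_injective (Int.cast_injective) g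
    have hm0 : f.map (Int.castRingHom ℚ) ≠ 0 := fun h => hf0 (hinj (by simpa using h))
    rcases Nat.eq_zero_or_pos f.natDegree with hd0 | hd0
    · exact tailPow_gt f hf0 k (by omega)
    by_cases hirr : Irreducible (f.map (Int.castRingHom ℚ))
    · have h1 := hfac _ hirr dvd_rfl
      rw [hdegmap] at h1
      exact hQ f hirr h1
    have hnu : ¬ IsUnit (f.map (Int.castRingHom ℚ)) := by
      intro h
      have h1 := natDegree_eq_zero_of_isUnit h
      rw [hdegmap] at h1
      omega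
    obtain ⟨a, b, ha, hb, hab⟩ : ∃ a b : ℚ[X], ¬ IsUnit a ∧ ¬ IsUnit b ∧
        f.map (Int.castRingHom ℚ) = a * b := by
      by_contra hcon
      apply hirr
      refine ⟨hnu, fun a b hab => ?_⟩
      by_contra h
      push Not at h
      exact hcon ⟨a, b, h.1, h.2, hab⟩
    have ha0 : a ≠ 0 := by
      rintro rfl
      exact hm0 (by rw [hab, zero_mul])
    have hb0 : b ≠ 0 := by
      rintro rfl
      exact hm0 (by rw [hab, mul_zero])
    have hdega : 0 < a.natDegree := by
      by_contra h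
      have h0 : a.natDegree = 0 := by omega
      exact ha (isUnit_iff_degree_eq_zero.2 (by rw [degree_eq_natDegree ha0, h0]; rfl))
    have hdegb : 0 < b.natDegree := by
      by_contra h
      have h0 : b.natDegree = 0 := by omega
      exact hb (isUnit_iff_degree_eq_zero.2 (by rw [degree_eq_natDegree hb0, h0]; rfl))
    have hdeg : f.natDegree = a.natDegree + b.natDegree := by
      rw [← hdegmap f, hab, natDegree_mul ha0 hb0]
    have hcop : IsCoprime a b := by
      have h1 : Squarefree (a * b) := hab ▸ hsq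
      exact (squarefree_mul_iff.1 h1).1.isCoprime
    obtain ⟨A, s, hs, hA⟩ := sv_normal a
    obtain ⟨B, t, ht, hB⟩ := sv_normal b
    have hsu : IsUnit (C (s : ℚ)) := isUnit_C.2 (isUnit_iff_ne_zero.2 (by exact_mod_cast hs))
    have htu : IsUnit (C (t : ℚ)) := isUnit_C.2 (isUnit_iff_ne_zero.2 (by exact_mod_cast ht))
    have hAa : Associated (A.map (Int.castRingHom ℚ)) a := by
      rw [hA]
      exact (associated_unit_mul_left a _ hsu)
    have hBb : Associated (B.map (Int.castRingHom ℚ)) b := by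
      rw [hB]
      exact (associated_unit_mul_left b _ htu)
    have hdA : A.natDegree = a.natDegree := by
      rw [← hdegmap A, hA, natDegree_mul hsu.ne_zero ha0]
      simp
    have hdB : B.natDegree = b.natDegree := by
      rw [← hdegmap B, hB, natDegree_mul htu.ne_zero hb0]
      simp
    have hsqab : Squarefree a ∧ Squarefree b := by
      have h1 : Squarefree (a * b) := hab ▸ hsq
      exact ⟨(squarefree_mul_iff.1 h1).2.1, (squarefree_mul_iff.1 h1).2.2⟩
    have hcopAB : IsCoprime (A.map (Int.castRingHom ℚ)) (B.map (Int.castRingHom ℚ)) := by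
      rw [hA, hB]
      exact (isCoprime_mul_unit_left_left hsu _ _).2 ((isCoprime_mul_unit_left_right htu _ _).2 hcop)
    obtain ⟨u, v, R, hR, hbez⟩ := int_bezout A B hcopAB
    have hABf : A * B = C (s * t) * f := by
      apply hinj
      simp only [Polynomial.map_mul, Polynomial.map_C, hA, hB, hab]
      simp only [eq_intCast, Int.cast_mul, C_mul]
      ring
    exact tailPow_split f A B u v R (s * t) hR hABf hbez k
      (ih A (by omega) ((hAa.symm.squarefree_iff).1 hsqab.1) fun g hg hgd => hfac g hg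
        (by rw [hab]; exact (hgd.trans hAa.dvd).trans (dvd_mul_right a b)))
      (ih B (by omega) ((hBb.symm.squarefree_iff).1 hsqab.2) fun g hg hgd => hfac g hg
        (by rw [hab]; exact (hgd.trans hBb.dvd).trans (dvd_mul_left b a)))

/-! ### irreducible polynomials -/

/-- the pairs with `3 ≤ d`, `k ≤ d`. -/
theorem tailPow_mid (f : ℤ[X]) (hirr : Irreducible (f.map (Int.castRingHom ℚ))) (k : ℕ)
    (hk : 2 ≤ k) (hd3 : 3 ≤ f.natDegree) (hkd : k ≤ f.natDegree) (hr : InRange f.natDegree k)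
    (hnear : NearOne f k) : TailPow f k := by
  rcases lt_or_ge k f.natDegree with h | h
  · exact tailPow_of_hpp f hirr k hk (by omega) (hpp_of_hp f k (hp_range f hirr k hk h hr) hnear)
  · exact tailPow_of_hpp f hirr k hk (by omega) (hpp_of_near f k hk h hnear)

end Vale.Agent.P018.H867P
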